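import Vale.Agent.P268.T.H327.HP

/-!
# P268, topological half: admissible parameters for hairpin data

* `exists_hadm`: a continuous family of hairpin data over a compact set has uniform admissible
  parameters (`ε` small; `R`, `M / R`, `K` large);
* `HAdm.mono`: admissibility is monotone in the parameters;
* `HAdm.segment`: the segment from admissible parameters to better ones is admissible.
-/

set_option linter.unusedSectionVars false

namespace Vale.Agent.P268.T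

open Set Filter Topology Metric

/-! ### Uniform bounds -/

section Unif

variable {X I : Type*} [TopologicalSpace X] [Finite I]

/-- Finitely many positive continuous functions on compact sets have a common positive lower
bound. -/
theorem exists_unif_pos {K : I → Set X} (hK : ∀ i, IsCompact (K i)) {f : I → X → ℝ}
    (hf : ∀ i, ContinuousOn (f i) (K i)) (hpos : ∀ i, ∀ x ∈ K i, 0 < f i x) :
    ∃ δ > 0, ∀ i, ∀ x ∈ K i, δ ≤ f i x := by
  have h1 : ∀ i, ∃ δ : ℝ, 0 < δ ∧ ∀ x ∈ K i, δ ≤ f i x := fun i => by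
    obtain ⟨δ, h3, h4⟩ := (hK i).exists_forall_le' (hf i) (a := 0) (hpos i)
    exact ⟨δ, h3, h4⟩
  choose δ hδ0 hδ using h1
  cases nonempty_fintype I
  rcases isEmpty_or_nonempty I with hI | hI
  · exact ⟨1, one_pos, fun i => (hI.false i).elim⟩
  · obtain ⟨i₀, hi₀⟩ := Finite.exists_min δ
    exact ⟨δ i₀, hδ0 i₀, fun i x hx => (hi₀ i).trans (hδ i x hx)⟩

/-- Finitely many continuous functions on compact sets have a common bound. -/
theorem exists_unif_bdd {W : Type*} [NormedAddCommGroup W] {K : I → Set X}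
    (hK : ∀ i, IsCompact (K i)) {f : I → X → W} (hf : ∀ i, ContinuousOn (f i) (K i)) :
    ∃ C > 0, ∀ i, ∀ x ∈ K i, ‖f i x‖ ≤ C := by
  have h1 : ∀ i, ∃ C : ℝ, ∀ x ∈ K i, ‖f i x‖ ≤ C := fun i =>
    (hK i).exists_bound_of_continuousOn (hf i)
  choose C hC using h1
  cases nonempty_fintype I
  rcases isEmpty_or_nonempty I with hI | hI
  · exact ⟨1, one_pos, fun i => (hI.false i).elim⟩
  · obtain ⟨i₀, hi₀⟩ := Finite.exists_max C
    exact ⟨max 1 (C i₀), lt_max_of_lt_left one_pos, fun i x hx =>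
      (hC i x hx).trans ((hi₀ i).trans (le_max_right _ _))⟩

/-- Sublevel sets of a function continuous on a compact set are compact. -/
theorem isCompact_sublevel {S : Set X} (hS : IsCompact S) {f : X → ℝ} (hf : ContinuousOn f S)
    {C : Set ℝ} (hC : IsClosed C) : IsCompact (S ∩ f ⁻¹' C) := by
  obtain ⟨u, hu, hu'⟩ := continuousOn_iff_isClosed.mp hf C hC
  rw [inter_comm, hu', inter_comm]
  exact hS.inter_right hu

end Unif

variable {T V κ ι : Type*} [TopologicalSpace T] [NormedAddCommGroup V] [InnerProductSpace ℝ V]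
  [Fintype ι] [DecidableEq ι]

/-! ### The maps to the wall -/

section Maps

variable {i₀ : ι} {c : ℝ} {x : ι → ℝ}

theorem wl_apply_self (i₀ : ι) (c : ℝ) (x : ι → ℝ) : wl i₀ c x i₀ = c := by
  simp [wl]

theorem lf_apply_self (i₀ : ι) (c : ℝ) (x : ι → ℝ) : lf i₀ c x i₀ = min (x i₀) c := by
  simp [lf]

theorem lf_apply_self_le (i₀ : ι) (c : ℝ) (x : ι → ℝ) : lf i₀ c x i₀ ≤ c := by
  rw [lf_apply_self]
  exact min_le_right _ _

theorem norm_update_le {i₀ : ι} {c : ℝ} {x : ι → ℝ} {B : ℝ} (hB : 0 ≤ B) (hx : ‖x‖ ≤ B)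
    (hc : |c| ≤ B) : ‖Function.update x i₀ c‖ ≤ B := by
  rw [pi_norm_le_iff_of_nonneg hB]
  intro i
  by_cases h : i = i₀
  · subst h
    simpa using hc
  · rw [Function.update_of_ne h]
    exact (norm_le_pi_norm x i).trans hx

theorem norm_wl_le (hx : ‖x‖ ≤ 1) (hc : |c| ≤ 1) : ‖wl i₀ c x‖ ≤ 1 :=
  norm_update_le zero_le_one hx hc

theorem norm_lf_le (hx : ‖x‖ ≤ 1) (hc : |c| ≤ 1) : ‖lf i₀ c x‖ ≤ 1 := by
  refine norm_update_le zero_le_one hx ?_
  have h1 : |x i₀| ≤ 1 := (norm_le_pi_norm x i₀).trans hx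
  rcases min_choice (x i₀) c with h | h <;> rw [h] <;> assumption

theorem lf_of_le (hx : x i₀ ≤ c) : lf i₀ c x = x := by
  rw [lf, min_eq_left hx, Function.update_eq_self]

theorem wl_of_eq (hx : x i₀ = c) : wl i₀ c x = x := by
  rw [wl, ← hx, Function.update_eq_self]

theorem wl_wl (i₀ : ι) (c : ℝ) (x : ι → ℝ) : wl i₀ c (wl i₀ c x) = wl i₀ c x :=
  wl_of_eq (wl_apply_self i₀ c x)

end Maps

/-! ### Domains of the data -/

section Dom

variable {s : Set T} {i₀ : ι} {c : T → ℝ}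

/-- The domain of the data of the hairpin sheets. -/
def lset (s : Set T) (i₀ : ι) (c : T → ℝ) : Set (T × (ι → ℝ)) :=
  {q | q.1 ∈ s ∧ ‖q.2‖ ≤ 1 ∧ q.2 i₀ ≤ c q.1}

/-- The domain of the tip data. -/
def wset (s : Set T) (i₀ : ι) (c : T → ℝ) : Set (T × (ι → ℝ)) :=
  {q | q.1 ∈ s ∧ ‖q.2‖ ≤ 1 ∧ q.2 i₀ = c q.1}

theorem isCompact_qset (hs : IsCompact s) :
    IsCompact (s ×ˢ closedBall (0 : ι → ℝ) 1) := hs.prod (isCompact_closedBall 0 1)

theorem continuousOn_wallfun (hc : ContinuousOn c s) (B : Set (ι → ℝ)) :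
    ContinuousOn (fun q : T × (ι → ℝ) => q.2 i₀ - c q.1) (s ×ˢ B) := by
  have h1 : Continuous fun q : T × (ι → ℝ) => q.2 i₀ := by fun_prop
  exact h1.continuousOn.sub (hc.comp continuousOn_fst fun q hq => hq.1)

theorem isCompact_lset (hs : IsCompact s) (hc : ContinuousOn c s) : IsCompact (lset s i₀ c) := by
  have h1 := isCompact_sublevel (isCompact_qset (ι := ι) hs)
    (continuousOn_wallfun (i₀ := i₀) hc _) (isClosed_Iic (a := (0 : ℝ)))
  convert h1 using 1
  ext q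
  simp only [lset, mem_ofPred_eq, mem_inter_iff, mem_prod, mem_closedBall_zero_iff, mem_preimage,
    mem_Iic, sub_nonpos, and_assoc]

theorem isCompact_wset (hs : IsCompact s) (hc : ContinuousOn c s) : IsCompact (wset s i₀ c) := by
  have h1 := isCompact_sublevel (isCompact_qset (ι := ι) hs)
    (continuousOn_wallfun (i₀ := i₀) hc _) (isClosed_singleton (x := (0 : ℝ)))
  convert h1 using 1
  ext q
  simp only [wset, mem_ofPred_eq, mem_inter_iff, mem_prod, mem_closedBall_zero_iff, mem_preimage,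
    mem_singleton_iff, sub_eq_zero, and_assoc]

theorem continuousOn_update {X : Type*} [TopologicalSpace X] {S : Set X} {f : X → ι → ℝ}
    {g : X → ℝ} (hf : ContinuousOn f S) (hg : ContinuousOn g S) (i₀ : ι) :
    ContinuousOn (fun x => Function.update (f x) i₀ (g x)) S := fun x hx =>
  Tendsto.update (hf x hx) i₀ (hg x hx)

theorem continuousOn_wl (hc : ContinuousOn c s) (B : Set (ι → ℝ)) :
    ContinuousOn (fun q : T × (ι → ℝ) => (q.1, wl i₀ (c q.1) q.2)) (s ×ˢ B) := by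
  refine continuousOn_fst.prodMk ?_
  unfold wl
  have h1 : ContinuousOn (fun q : T × (ι → ℝ) => c q.1) (s ×ˢ B) :=
    hc.comp continuousOn_fst fun q hq => hq.1
  exact continuousOn_update continuousOn_snd h1 i₀

theorem continuousOn_lf (hc : ContinuousOn c s) (B : Set (ι → ℝ)) :
    ContinuousOn (fun q : T × (ι → ℝ) => (q.1, lf i₀ (c q.1) q.2)) (s ×ˢ B) := by
  refine continuousOn_fst.prodMk ?_
  unfold lf
  have h1 : ContinuousOn (fun q : T × (ι → ℝ) => c q.1) (s ×ˢ B) :=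
    hc.comp continuousOn_fst fun q hq => hq.1
  have h2 : Continuous fun q : T × (ι → ℝ) => q.2 i₀ := by fun_prop
  exact continuousOn_update continuousOn_snd (ContinuousOn.inf h2.continuousOn h1) i₀

theorem mapsTo_wl (hc : ∀ t ∈ s, |c t| < 1) :
    MapsTo (fun q : T × (ι → ℝ) => (q.1, wl i₀ (c q.1) q.2)) (s ×ˢ closedBall (0 : ι → ℝ) 1)
      (wset s i₀ c) :=
  fun q hq => ⟨hq.1, norm_wl_le (mem_closedBall_zero_iff.mp hq.2) (hc q.1 hq.1).le,
    wl_apply_self _ _ _⟩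

theorem mapsTo_lf (hc : ∀ t ∈ s, |c t| < 1) :
    MapsTo (fun q : T × (ι → ℝ) => (q.1, lf i₀ (c q.1) q.2)) (s ×ˢ closedBall (0 : ι → ℝ) 1)
      (lset s i₀ c) :=
  fun q hq => ⟨hq.1, norm_lf_le (mem_closedBall_zero_iff.mp hq.2) (hc q.1 hq.1).le,
    lf_apply_self_le _ _ _⟩

end Dom

/-! ### Monotonicity -/

/-- Admissibility is monotone in the parameters. -/
theorem HAdm.mono {i₀ : ι} {ε R M K ε' R' M' K' : ℝ} {D : HData κ (ι → ℝ) V}
    (h : HAdm i₀ ε R M K D) (hε : 0 < ε') (hε' : ε' ≤ ε) (hR : R ≤ R') (hM : 32 * R' ≤ M')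
    (hMr : R' ≤ M' * D.r0) (hK : K ≤ K') : HAdm i₀ ε' R' M' K' D := by
  have hr0 : 0 < D.r0 := by linarith [h.hr, h.hε]
  have hK0 := h.hK
  have hKK : 16 * D.r0 / K' ≤ 16 * D.r0 / K := by
    apply div_le_div_of_nonneg_left (by positivity) hK0 hK
  exact {
    hε := hε
    hR := by linarith [h.hR]
    hM := hM
    hMr := hMr
    hr := by linarith [h.hr]
    hK := by linarith
    hb := fun a x hx => by linarith [h.hb a x hx]
    hm := fun x hx hx' => by linarith [h.hm x hx hx']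
    hd := fun a a' ha x hx hx' => by linarith [h.hd a a' ha x hx hx']
    ht := fun a x hx hx' μ hμ => by linarith [h.ht a x hx (hx'.trans hKK) μ hμ]
    hg := fun x hx hx' hx'' => h.hg x hx (by linarith) hx''
    h1 := by linarith [h.h1] }

/-- The segment from admissible parameters to better ones is admissible. -/
theorem HAdm.segment {i₀ : ι} {ε R M K ε' R' M' K' : ℝ} {D : HData κ (ι → ℝ) V}
    (h : HAdm i₀ ε R M K D) (hε : 0 < ε') (hε' : ε' ≤ ε) (hR : R ≤ R') (hM : 32 * R' ≤ M')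
    (hMr : R' ≤ M' * D.r0) (hK : K ≤ K') {t : ℝ} (ht : t ∈ Icc (0 : ℝ) 1) :
    HAdm i₀ ((1 - t) * ε + t * ε') ((1 - t) * R + t * R') ((1 - t) * M + t * M')
      ((1 - t) * K + t * K') D := by
  have h0 : 0 ≤ 1 - t := by linarith [ht.2]
  have h1 := ht.1
  have key : ∀ {x y x' y' : ℝ}, x ≤ y → x' ≤ y' →
      (1 - t) * x + t * x' ≤ (1 - t) * y + t * y' := fun hx hx' =>
    add_le_add (mul_le_mul_of_nonneg_left hx h0) (mul_le_mul_of_nonneg_left hx' h1)
  refine h.mono ?_ ?_ ?_ ?_ ?_ ?_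
  · have h2 := key hε' le_rfl (x' := ε')
    linarith
  · have := key le_rfl hε' (x := ε)
    linarith
  · have := key le_rfl hR (x := R)
    linarith
  · have := key h.hM hM
    linarith
  · have := key h.hMr hMr
    linarith
  · have := key le_rfl hK (x := K)
    linarith

/-! ### Existence -/

section Exists

variable {s : Set T} {i₀ : ι} {e : V} {D : T → HData κ (ι → ℝ) V}

theorem HPFam.continuousOn_cen (h : HPFam s i₀ e D) (a : κ ⊕ Bool) :
    ContinuousOn (fun q : T × (ι → ℝ) => (D q.1).cen i₀ a q.2) (s ×ˢ closedBall 0 1) := by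
  have h1 := continuousOn_lf (i₀ := i₀) h.cc (closedBall (0 : ι → ℝ) 1)
  have h2 := mapsTo_lf (i₀ := i₀) h.hc
  match a with
  | .inl a => exact h.oth.cb a
  | .inr true => exact h.cbk.comp h1 h2
  | .inr false => exact h.cbt.comp h1 h2

theorem HPFam.continuousOn_nor (h : HPFam s i₀ e D) (a : κ ⊕ Bool) :
    ContinuousOn (fun q : T × (ι → ℝ) => (D q.1).nor i₀ a q.2) (s ×ˢ closedBall 0 1) := by
  have h1 := continuousOn_lf (i₀ := i₀) h.cc (closedBall (0 : ι → ℝ) 1)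
  have h2 := mapsTo_lf (i₀ := i₀) h.hc
  match a with
  | .inl a => exact h.oth.cn a
  | .inr true => exact h.cnk.comp h1 h2
  | .inr false => exact h.cnt.comp h1 h2

theorem HPFam.continuousOn_m (h : HPFam s i₀ e D) :
    ContinuousOn (fun q : T × (ι → ℝ) => (D q.1).m (wl i₀ (D q.1).c q.2))
      (s ×ˢ closedBall 0 1) :=
  h.cm.comp (continuousOn_wl (i₀ := i₀) h.cc _) (mapsTo_wl h.hc)

theorem HPFam.continuousOn_ph (h : HPFam s i₀ e D) :
    ContinuousOn (fun q : T × (ι → ℝ) => (D q.1).ph (wl i₀ (D q.1).c q.2))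
      (s ×ˢ closedBall 0 1) :=
  h.cph.comp (continuousOn_wl (i₀ := i₀) h.cc _) (mapsTo_wl h.hc)

theorem HPFam.continuousOn_nw (h : HPFam s i₀ e D) :
    ContinuousOn (fun q : T × (ι → ℝ) => (D q.1).nw (wl i₀ (D q.1).c q.2))
      (s ×ˢ closedBall 0 1) :=
  h.cnw.comp (continuousOn_wl (i₀ := i₀) h.cc _) (mapsTo_wl h.hc)

/-- Distinct sheets are disjoint. -/
theorem HPFam.cen_ne (h : HPFam s i₀ e D) {τ : T} (hτ : τ ∈ s) {x : ι → ℝ} (hx : ‖x‖ ≤ 1)
    {a a' : κ ⊕ Bool} (ha : a ≠ a') (hx' : a.isRight ∨ a'.isRight → x i₀ ≤ (D τ).c) :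
    (D τ).cen i₀ a x ≠ (D τ).cen i₀ a' x := by
  match a, a' with
  | .inl a, .inl a' =>
    intro h1
    exact ha (congrArg Sum.inl (h.oth.inj τ hτ x (mem_closedBall_zero_iff.mpr hx) h1))
  | .inl a, .inr true =>
    have h1 := hx' (Or.inr rfl)
    show (D τ).b a x ≠ (D τ).bk (lf i₀ (D τ).c x)
    rw [lf_of_le h1]
    exact (h.dk τ hτ x hx h1 a).symm
  | .inl a, .inr false =>
    have h1 := hx' (Or.inr rfl)
    show (D τ).b a x ≠ (D τ).bt (lf i₀ (D τ).c x)
    rw [lf_of_le h1]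
    exact (h.dt τ hτ x hx h1 a).symm
  | .inr true, .inl a =>
    have h1 := hx' (Or.inl rfl)
    show (D τ).bk (lf i₀ (D τ).c x) ≠ (D τ).b a x
    rw [lf_of_le h1]
    exact h.dk τ hτ x hx h1 a
  | .inr false, .inl a =>
    have h1 := hx' (Or.inl rfl)
    show (D τ).bt (lf i₀ (D τ).c x) ≠ (D τ).b a x
    rw [lf_of_le h1]
    exact h.dt τ hτ x hx h1 a
  | .inr true, .inr false =>
    have h1 := hx' (Or.inl rfl)
    show (D τ).bk (lf i₀ (D τ).c x) ≠ (D τ).bt (lf i₀ (D τ).c x)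
    rw [lf_of_le h1]
    exact h.dkt τ hτ x hx h1
  | .inr false, .inr true =>
    have h1 := hx' (Or.inl rfl)
    show (D τ).bt (lf i₀ (D τ).c x) ≠ (D τ).bk (lf i₀ (D τ).c x)
    rw [lf_of_le h1]
    exact (h.dkt τ hτ x hx h1).symm
  | .inr true, .inr true => exact absurd rfl ha
  | .inr false, .inr false => exact absurd rfl ha

/-- **Uniform admissible parameters** for a family of hairpin data over a compact set. -/
theorem exists_hadm [Finite κ] (hs : IsCompact s) (h : HPFam s i₀ e D) :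
    ∃ ε₀ > 0, ∃ R₀ > 0, ∃ L > 0, ∃ K₀ > 0, ∀ ε ∈ Ioc (0 : ℝ) ε₀, ∀ R ≥ R₀, ∀ M ≥ L * R,
      ∀ K ≥ K₀, ∀ t ∈ s, HAdm i₀ ε R M K (D t) := by
  classical
  have hQ : IsCompact (s ×ˢ closedBall (0 : ι → ℝ) 1) := isCompact_qset hs
  have hL := isCompact_lset (i₀ := i₀) hs h.cc
  have hW := isCompact_wset (i₀ := i₀) hs h.cc
  have hLQ : lset s i₀ (fun τ => (D τ).c) ⊆ s ×ˢ closedBall (0 : ι → ℝ) 1 :=
    fun q hq => ⟨hq.1, mem_closedBall_zero_iff.mpr hq.2.1⟩
  -- bounds for the half distance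
  obtain ⟨ρ, hρ0, hρ⟩ : ∃ ρ : ℝ, 0 < ρ ∧ ∀ t ∈ s, ρ ≤ (D t).r0 :=
    hs.exists_forall_le' h.cr (a := 0) h.hr
  obtain ⟨ρ', hρ'⟩ := hs.exists_bound_of_continuousOn h.cr
  have hρ'1 : ∀ t ∈ s, (D t).r0 ≤ |ρ'| := fun t ht =>
    ((le_abs_self _).trans (hρ' t ht)).trans (le_abs_self _)
  -- bounds for the centres
  obtain ⟨C, hC0, hC⟩ := exists_unif_bdd (I := κ ⊕ Bool) (fun _ => hQ) (fun a => h.continuousOn_cen a)
  obtain ⟨C', hC'⟩ := hW.exists_bound_of_continuousOn h.cm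
  -- distances
  obtain ⟨δ, hδ0, hδ⟩ := exists_unif_pos (I := (κ ⊕ Bool) × (κ ⊕ Bool))
    (K := fun i => if i.1 = i.2 then ∅ else if i.1.isRight ∨ i.2.isRight then
      lset s i₀ (fun τ => (D τ).c) else s ×ˢ closedBall (0 : ι → ℝ) 1)
    (f := fun i q => ‖(D q.1).cen i₀ i.1 q.2 - (D q.1).cen i₀ i.2 q.2‖)
    (fun i => by
      by_cases h1 : i.1 = i.2
      · simp [h1]
      · by_cases h2 : i.1.isRight ∨ i.2.isRight
        · simpa [h1, h2] using hL
        · simpa [h1, h2] using hQ)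
    (fun i => by
      have h3 := ((h.continuousOn_cen i.1).sub (h.continuousOn_cen i.2)).norm
      by_cases h1 : i.1 = i.2
      · simp [h1]
      · by_cases h2 : i.1.isRight ∨ i.2.isRight
        · simp only [h1, h2, if_true, if_false]
          exact h3.mono hLQ
        · simp only [h1, h2, if_false]
          exact h3)
    (fun i q hq => by
      by_cases h1 : i.1 = i.2
      · simp [h1] at hq
      · by_cases h2 : i.1.isRight ∨ i.2.isRight
        · simp only [h1, h2, if_true, if_false] at hq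
          exact norm_pos_iff.mpr (sub_ne_zero.mpr (h.cen_ne hq.1 hq.2.1 h1 fun _ => hq.2.2))
        · simp only [h1, h2, if_false] at hq
          exact norm_pos_iff.mpr (sub_ne_zero.mpr (h.cen_ne hq.1
            (mem_closedBall_zero_iff.mp hq.2) h1 fun h3 => absurd h3 h2)))
  -- the tip
  obtain ⟨δ', hδ'0, hδ'⟩ := exists_unif_pos (I := κ) (X := (T × (ι → ℝ)) × ℝ)
    (K := fun _ => (s ×ˢ closedBall (0 : ι → ℝ) 1) ×ˢ Icc (-1 : ℝ) 1)
    (f := fun a q => ‖(D q.1.1).b a q.1.2 - ((D q.1.1).m (wl i₀ (D q.1.1).c q.1.2) +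
      (q.2 * (D q.1.1).r0) • (D q.1.1).ph (wl i₀ (D q.1.1).c q.1.2))‖ +
        |q.1.2 i₀ - (D q.1.1).c|)
    (fun _ => hQ.prod isCompact_Icc)
    (fun a => by
      have hf : MapsTo (fun q : (T × (ι → ℝ)) × ℝ => q.1)
        ((s ×ˢ closedBall (0 : ι → ℝ) 1) ×ˢ Icc (-1 : ℝ) 1)
        (s ×ˢ closedBall (0 : ι → ℝ) 1) := fun q hq => hq.1
      have hf' : MapsTo (fun q : (T × (ι → ℝ)) × ℝ => q.1.1)
        ((s ×ˢ closedBall (0 : ι → ℝ) 1) ×ˢ Icc (-1 : ℝ) 1) s := fun q hq => hq.1.1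
      have h0 : ContinuousOn (fun q : (T × (ι → ℝ)) × ℝ => q.1)
        ((s ×ˢ closedBall (0 : ι → ℝ) 1) ×ˢ Icc (-1 : ℝ) 1) := continuousOn_fst
      have h0' : ContinuousOn (fun q : (T × (ι → ℝ)) × ℝ => q.1.1)
        ((s ×ˢ closedBall (0 : ι → ℝ) 1) ×ˢ Icc (-1 : ℝ) 1) := by fun_prop
      have h1 := (h.oth.cb a).comp h0 hf
      have h2 := h.continuousOn_m.comp h0 hf
      have h3 := h.continuousOn_ph.comp h0 hf
      have h4 := h.cr.comp h0' hf'
      have h5 := h.cc.comp h0' hf'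
      have h6 : ContinuousOn (fun q : (T × (ι → ℝ)) × ℝ => q.2)
        ((s ×ˢ closedBall (0 : ι → ℝ) 1) ×ˢ Icc (-1 : ℝ) 1) := by fun_prop
      have h7 : ContinuousOn (fun q : (T × (ι → ℝ)) × ℝ => q.1.2 i₀)
        ((s ×ˢ closedBall (0 : ι → ℝ) 1) ×ˢ Icc (-1 : ℝ) 1) := by fun_prop
      exact ((h1.sub (h2.add ((h6.mul h4).smul h3))).norm).add (h7.sub h5).abs)
    (fun a q hq => by
      rcases (abs_nonneg (q.1.2 i₀ - (D q.1.1).c)).eq_or_lt with h1 | h1
      · have h2 : q.1.2 i₀ = (D q.1.1).c := by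
          have := abs_eq_zero.mp h1.symm
          linarith
        have h3 := h.dtip q.1.1 hq.1.1 q.1.2 (mem_closedBall_zero_iff.mp hq.1.2) h2 a
          (q.2 * (D q.1.1).r0) (by
            rw [abs_mul, abs_of_pos (h.hr _ hq.1.1)]
            have h4 : |q.2| ≤ 1 := abs_le.mpr hq.2
            have h5 := (h.hr _ hq.1.1).le
            nlinarith)
        rw [wl_of_eq h2]
        have h4 := norm_pos_iff.mpr (sub_ne_zero.mpr h3)
        linarith
      · have h2 := norm_nonneg ((D q.1.1).b a q.1.2 - ((D q.1.1).m (wl i₀ (D q.1.1).c q.1.2) +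
          (q.2 * (D q.1.1).r0) • (D q.1.1).ph (wl i₀ (D q.1.1).c q.1.2)))
        linarith)
  -- the faces
  obtain ⟨δ₁, hδ₁0, hδ₁⟩ : ∃ δ₁ : ℝ, 0 < δ₁ ∧ ∀ t ∈ s, δ₁ ≤ 1 - |(D t).c| :=
    hs.exists_forall_le' (f := fun t => 1 - |(D t).c|) (continuousOn_const.sub h.cc.abs) (a := 0)
      (fun t ht => by
        have h1 : |(D t).c| < 1 := h.hc t ht
        show (0 : ℝ) < 1 - |(D t).c|
        linarith)
  obtain ⟨d, hd0, hd⟩ := h.rig
  -- the width of the zone
  obtain ⟨η, hη0, hηd, hη1, hη2⟩ : ∃ η : ℝ, 0 < η ∧ η ≤ d ∧ η < δ₁ ∧ η ≤ δ' / 2 :=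
    ⟨min d (min (δ₁ / 2) (δ' / 2)), by positivity, min_le_left _ _,
      lt_of_le_of_lt ((min_le_right _ _).trans (min_le_left _ _)) (by linarith),
      (min_le_right _ _).trans (min_le_right _ _)⟩
  refine ⟨min 1 (min (ρ / 8) (min (δ / 4) (δ' / 16))), by positivity, C + |C'| + 2 * |ρ'| + 3,
    by positivity, max 32 ρ⁻¹, by positivity, 16 * |ρ'| / η + 1, by positivity,
    fun ε hε R hR M hM K hK t ht => ?_⟩
  have hε0 := hε.1
  have hε1 : ε ≤ 1 := hε.2.trans (min_le_left _ _)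
  have hε2 : ε ≤ ρ / 8 := hε.2.trans ((min_le_right _ _).trans (min_le_left _ _))
  have hε3 : ε ≤ δ / 4 :=
    hε.2.trans ((min_le_right _ _).trans ((min_le_right _ _).trans (min_le_left _ _)))
  have hε4 : ε ≤ δ' / 16 :=
    hε.2.trans ((min_le_right _ _).trans ((min_le_right _ _).trans (min_le_right _ _)))
  have hC'0 := abs_nonneg C'
  have hρ'0 := abs_nonneg ρ'
  have hR0 : 0 < R := by linarith
  have hM0 : max 32 ρ⁻¹ * R ≤ M := hM
  have hM1 : 32 * R ≤ M := (mul_le_mul_of_nonneg_right (le_max_left _ _) hR0.le).trans hM0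
  have hM2 : ρ⁻¹ * R ≤ M := (mul_le_mul_of_nonneg_right (le_max_right _ _) hR0.le).trans hM0
  have hr0 : 0 < (D t).r0 := h.hr t ht
  have hrρ : ρ ≤ (D t).r0 := hρ t ht
  have hrρ' : (D t).r0 ≤ |ρ'| := hρ'1 t ht
  have hK0 : 0 < K := lt_of_lt_of_le (by positivity) hK
  have hKη : 16 * (D t).r0 / K ≤ η := by
    rw [div_le_iff₀ hK0]
    have h1 : 16 * |ρ'| / η ≤ K := by linarith
    rw [div_le_iff₀ hη0] at h1
    linarith
  refine ⟨hε0, by linarith, hM1, ?_, by linarith, hK0, fun a x hx => ?_, fun x hx hx' => ?_,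
    fun a a' ha x hx hx' => ?_, fun a x hx hx' μ hμ => ?_, fun x hx hx' hx'' => ?_, ?_⟩
  · rw [inv_mul_le_iff₀ hρ0] at hM2
    have h1 : ρ * M ≤ (D t).r0 * M := mul_le_mul_of_nonneg_right hrρ (by linarith)
    linarith [mul_comm (D t).r0 M]
  · have h1 : ‖(D t).cen i₀ a x‖ ≤ C := hC a (t, x) ⟨ht, hx⟩
    linarith
  · have h1 : ‖(D t).m x‖ ≤ C' := hC' (t, x) ⟨ht, mem_closedBall_zero_iff.mp hx, hx'⟩
    linarith [le_abs_self C']
  · have h1 : δ ≤ ‖(D t).cen i₀ a x - (D t).cen i₀ a' x‖ := by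
      refine hδ (a, a') (t, x) ?_
      simp only [ha, if_false]
      by_cases h2 : a.isRight ∨ a'.isRight
      · simp only [h2, if_true]
        exact ⟨ht, mem_closedBall_zero_iff.mp hx, hx' h2⟩
      · simp only [h2, if_false]
        exact ⟨ht, hx⟩
    linarith
  · have h1 : |x i₀ - (D t).c| ≤ η := hx'.trans hKη
    have h2 : |μ / (D t).r0| ≤ 1 := by
      rw [abs_div, abs_of_pos hr0, div_le_one hr0]
      exact hμ
    have h3 := hδ' a ((t, x), μ / (D t).r0) ⟨⟨ht, hx⟩, abs_le.mp h2⟩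
    simp only [div_mul_cancel₀ _ hr0.ne'] at h3
    linarith
  · exact hd t ht x (mem_closedBall_zero_iff.mp hx) (by linarith) hx''
  · have h1 := hδ₁ t ht
    linarith

end Exists

end Vale.Agent.P268.T
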