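import Vale.Agent.P268.T.H545.HPVeq

/-!
# P268, topological half: `HPVeqFam` from the gluing and regularity statements
-/

set_option linter.unusedSectionVars false

namespace Vale.Agent.P268.T

open Set Filter Topology Metric

/-- Gluing statement for hairpin families. -/
def HPGlueSt (κ : Type*) (ι : Type*) [Fintype κ] [Fintype ι] [DecidableEq ι] {V : Type*}
    [NormedAddCommGroup V] [InnerProductSpace ℝ V] (i₀ : ι) (e : V) : Prop :=
  ∀ (T : Type) [TopologicalSpace T] (s : Set T) (D : T → HData κ (ι → ℝ) V)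
    (ε R M K : T → ℝ) (η : ℝ), ContinuousOn ε s → ContinuousOn R s → ContinuousOn M s →
    ContinuousOn K s → HPFam s i₀ e D → (∀ t ∈ s, HAdm i₀ (ε t) (R t) (M t) (K t) (D t)) →
    0 < η → (∀ t ∈ s, η ≤ ε t) →
    Glue s η (fun x => ‖x.1‖) (hplates i₀ e ε R M K D).rho (hplates i₀ e ε R M K D).be

/-- Regularity statement for hairpin families. -/
def HPRegSt (κ : Type*) (ι : Type*) [Fintype κ] [Fintype ι] [DecidableEq ι] {V : Type*}
    [NormedAddCommGroup V] [InnerProductSpace ℝ V] (i₀ : ι) (e : V) : Prop :=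
  ∀ (D : ℝ → HData κ (ι → ℝ) V) (ε R M K : ℝ → ℝ) (η : ℝ), ContinuousOn ε (Icc 0 1) →
    ContinuousOn R (Icc 0 1) → ContinuousOn M (Icc 0 1) →
    ContinuousOn K (Icc 0 1) → HPFam (Icc (0 : ℝ) 1) i₀ e D →
    (∀ t ∈ Icc (0 : ℝ) 1, HAdm i₀ (ε t) (R t) (M t) (K t) (D t)) →
    0 < η → (∀ t ∈ Icc (0 : ℝ) 1, η ≤ ε t) →
    RFam (Icc (0 : ℝ) 1) ((hplates i₀ e ε R M K D).fn η (fun x => ‖x.1‖))

/-- `HPVeqFam` from the gluing and regularity statements. -/
theorem hpVeqFam_of {κ ι V : Type*} [Fintype κ] [Fintype ι] [DecidableEq ι]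
    [NormedAddCommGroup V] [InnerProductSpace ℝ V] [ProperSpace V] {i₀ : ι} {e : V}
    (HG : HPGlueSt κ ι i₀ e) (HR : HPRegSt κ ι i₀ e) : HPVeqFam κ ι i₀ e := by
  intro D ε R M K cε cR cM cK h hA
  obtain ⟨η, hη, hηε⟩ : ∃ η : ℝ, 0 < η ∧ ∀ t ∈ Icc (0 : ℝ) 1, η ≤ ε t :=
    isCompact_Icc.exists_forall_le' cε (a := 0) fun t ht => (hA t ht).hε
  have l := left_mem_Icc.mpr (zero_le_one (α := ℝ))
  have r := right_mem_Icc.mpr (zero_le_one (α := ℝ))
  have hG := HG ℝ (Icc 0 1) D ε R M K η cε cR cM cK h hA hη hηε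
  have hR := HR D ε R M K η cε cR cM cK h hA hη hηε
  have key : ∀ t ∈ Icc (0 : ℝ) 1, VEq (HP i₀ e (ε t) (R t) (M t) (K t) (D t))
      ((hplates i₀ e ε R M K D).fn η (fun x => ‖x.1‖) t) := fun t ht =>
    gfn_veq (HG Unit univ (fun _ => D t) (fun _ => ε t) (fun _ => R t) (fun _ => M t)
      (fun _ => K t) (ε t) continuousOn_const continuousOn_const continuousOn_const
      continuousOn_const (h.at ht) (fun _ _ => hA t ht) (hA t ht).hε (fun _ _ => le_rfl))
      (mem_univ ()) hG ht rfl rfl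
  exact (key 0 l).trans ((hR.veq isPreconnected_Icc l r).trans (key 1 r).symm)

/-- `BlockHPHom` from the gluing and regularity statements. -/
theorem blockHPHom_of_st (HG : ∀ (d : ℕ) (κ : Type) [Fintype κ],
    HPGlueSt κ (Fin (d + 3)) (V := Vk d) 0 (frk d).h)
    (HR : ∀ (d : ℕ) (κ : Type) [Fintype κ],
    HPRegSt κ (Fin (d + 3)) (V := Vk d) 0 (frk d).h) : BlockHPHom :=
  blockHPHom_of fun d κ _ => hpVeqFam_of (HG d κ) (HR d κ)

end Vale.Agent.P268.T
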