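import Vale.Agent.P268.T.H545.HPCases
import Vale.Agent.P268.T.H327.HPDone

/-!
# P268, topological half: homotopies of hairpin data, conclusion (`BlockHPHom`)
-/

set_option linter.unusedSectionVars false

namespace Vale.Agent.P268.T

open Set Filter Topology Metric

variable {T V κ ι : Type*} [TopologicalSpace T] [NormedAddCommGroup V] [InnerProductSpace ℝ V]
  [Fintype ι] [DecidableEq ι] [Fintype κ]

theorem zeroCases {s : Set T} {i₀ : ι} {e : V} (he : ‖e‖ = 1) {ε R M K : T → ℝ}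
    {D : T → HData κ (ι → ℝ) V} (cε : ContinuousOn ε s) (cR : ContinuousOn R s)
    (cM : ContinuousOn M s) (cK : ContinuousOn K s) (hD : HPFam s i₀ e D)
    (hA : ∀ τ ∈ s, HAdm i₀ (ε τ) (R τ) (M τ) (K τ) (D τ)) {η : ℝ} (hη : 0 < η)
    (hηε : ∀ τ ∈ s, η ≤ ε τ) : ZeroCases s i₀ e ε R M K D := by
  intro τ₀ hτ₀ x₀ hx h0
  exact hp_cases hD hA cε cM cK (hplates_glue he cε cR cM cK hD hA hη hηε).cr hτ₀ hx h0

/-- **Families of hairpin forms are of class `R`.** -/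
theorem hplates_rfam' {s : Set T} {i₀ : ι} {e : V} (he : ‖e‖ = 1) {ε R M K : T → ℝ}
    {D : T → HData κ (ι → ℝ) V} (cε : ContinuousOn ε s) (cR : ContinuousOn R s)
    (cM : ContinuousOn M s) (cK : ContinuousOn K s) (hD : HPFam s i₀ e D)
    (hA : ∀ τ ∈ s, HAdm i₀ (ε τ) (R τ) (M τ) (K τ) (D τ)) {η : ℝ} (hη : 0 < η)
    (hηε : ∀ τ ∈ s, η ≤ ε τ) :
    RFam s ((hplates i₀ e ε R M K D).fn η (fun x => ‖x.1‖)) :=
  hplates_rfam cε cR cM cK hD he hA (hplates_glue he cε cR cM cK hD hA hη hηε)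
    (zeroCases he cε cR cM cK hD hA hη hηε) (foldDirs cε cK hD hA)

/-- A hairpin form is of class `R`. -/
theorem HP_rfam {i₀ : ι} {e : V} (he : ‖e‖ = 1) {D : HData κ (ι → ℝ) V} (hD : HPData i₀ e D)
    {ε R M K : ℝ} (hA : HAdm i₀ ε R M K D) :
    RFam (univ : Set Unit) (fun _ => HP i₀ e ε R M K D) :=
  hplates_rfam' he (ε := fun _ => ε) (R := fun _ => R) (M := fun _ => M) (K := fun _ => K)
    continuousOn_const continuousOn_const continuousOn_const continuousOn_const hD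
    (fun _ _ => hA) hA.hε (fun _ _ => le_rfl)

theorem hpVeqFam [ProperSpace V] {i₀ : ι} {e : V} (he : ‖e‖ = 1) : HPVeqFam κ ι i₀ e :=
  hpVeqFam_of (fun _ _ _ _ _ _ _ _ _ c1 c2 c3 c4 h hA h0 h1 =>
      hplates_glue he c1 c2 c3 c4 h hA h0 h1)
    (fun _ _ _ _ _ _ c1 c2 c3 c4 h hA h0 h1 => hplates_rfam' he c1 c2 c3 c4 h hA h0 h1)

/-- **Homotopies of hairpin data.** -/
theorem HP_veq [ProperSpace V] {i₀ : ι} {e : V} (he : ‖e‖ = 1) {D : ℝ → HData κ (ι → ℝ) V}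
    (h : HPFam (Icc (0 : ℝ) 1) i₀ e D) {ε R M K ε' R' M' K' : ℝ} (h0 : HAdm i₀ ε R M K (D 0))
    (h1 : HAdm i₀ ε' R' M' K' (D 1)) :
    VEq (HP i₀ e ε R M K (D 0)) (HP i₀ e ε' R' M' K' (D 1)) :=
  HP_veq_of_homotopy (hpVeqFam he) h h0 h1

/-- **Block `HPHom`.** -/
theorem blockHPHom : BlockHPHom :=
  blockHPHom_of fun d _ _ => hpVeqFam (frk d).hh

end Vale.Agent.P268.T
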