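import Vale.Agent.P268.T.H545.HPAdm
import Vale.Agent.P268.T.DeltaR
import Vale.Agent.P268.T.H277.Props

/-!
# P268, topological half: homotopies of hairpin data with different parameters at the two ends

`HPVeqFam`: the statement for families of data and parameters over `[0, 1]` (what the class `R`
theorem for hairpin families gives).  From it: `HP_veq_of_homotopy` (different admissible
parameters at the two ends), and `BlockHPHom`.  `BlockHPAdm` is unconditional.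
-/

set_option linter.unusedSectionVars false

namespace Vale.Agent.P268.T

open Set Filter Topology Metric

variable {T V κ ι : Type*} [TopologicalSpace T] [NormedAddCommGroup V] [InnerProductSpace ℝ V]
  [Fintype ι] [DecidableEq ι]

section Fam

variable [Fintype κ] {s : Set T} {i₀ : ι} {e : V} {D : T → HData κ (ι → ℝ) V}

theorem HPFam.param {T' : Type*} [TopologicalSpace T'] {s' : Set T'} {φ : T' → T}
    (hφ : ContinuousOn φ s') (hm : MapsTo φ s' s) (h : HPFam s i₀ e D) :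
    HPFam s' i₀ e (fun t => D (φ t)) where
  oth := BFam.param (s := s) (b := fun τ => (D τ).b) (ν := fun τ => (D τ).n) hφ hm h.oth
  cc := h.cc.comp hφ hm
  cr := h.cr.comp hφ hm
  hc t ht := h.hc _ (hm ht)
  hr t ht := h.hr _ (hm ht)
  cbk := h.cbk.comp (f := fun q : T' × (ι → ℝ) => (φ q.1, q.2))
    ((hφ.comp continuousOn_fst fun q hq => hq.1).prodMk continuousOn_snd)
    fun q hq => ⟨hm hq.1, hq.2⟩
  cnk := h.cnk.comp (f := fun q : T' × (ι → ℝ) => (φ q.1, q.2))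
    ((hφ.comp continuousOn_fst fun q hq => hq.1).prodMk continuousOn_snd)
    fun q hq => ⟨hm hq.1, hq.2⟩
  cbt := h.cbt.comp (f := fun q : T' × (ι → ℝ) => (φ q.1, q.2))
    ((hφ.comp continuousOn_fst fun q hq => hq.1).prodMk continuousOn_snd)
    fun q hq => ⟨hm hq.1, hq.2⟩
  cnt := h.cnt.comp (f := fun q : T' × (ι → ℝ) => (φ q.1, q.2))
    ((hφ.comp continuousOn_fst fun q hq => hq.1).prodMk continuousOn_snd)
    fun q hq => ⟨hm hq.1, hq.2⟩
  cm := h.cm.comp (f := fun q : T' × (ι → ℝ) => (φ q.1, q.2))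
    ((hφ.comp continuousOn_fst fun q hq => hq.1).prodMk continuousOn_snd)
    fun q hq => ⟨hm hq.1, hq.2⟩
  cph := h.cph.comp (f := fun q : T' × (ι → ℝ) => (φ q.1, q.2))
    ((hφ.comp continuousOn_fst fun q hq => hq.1).prodMk continuousOn_snd)
    fun q hq => ⟨hm hq.1, hq.2⟩
  cnw := h.cnw.comp (f := fun q : T' × (ι → ℝ) => (φ q.1, q.2))
    ((hφ.comp continuousOn_fst fun q hq => hq.1).prodMk continuousOn_snd)
    fun q hq => ⟨hm hq.1, hq.2⟩
  nnk t ht := h.nnk _ (hm ht)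
  nnt t ht := h.nnt _ (hm ht)
  nph t ht := h.nph _ (hm ht)
  nnw t ht := h.nnw _ (hm ht)
  hbk t ht := h.hbk _ (hm ht)
  hbt t ht := h.hbt _ (hm ht)
  hm t ht := h.hm _ (hm ht)
  dkt t ht := h.dkt _ (hm ht)
  dk t ht := h.dk _ (hm ht)
  dt t ht := h.dt _ (hm ht)
  dtip t ht := h.dtip _ (hm ht)
  rig := by
    obtain ⟨d, hd0, hd⟩ := h.rig
    exact ⟨d, hd0, fun t ht => hd _ (hm ht)⟩

theorem HPFam.mono {s' : Set T} (hs : s' ⊆ s) (h : HPFam s i₀ e D) : HPFam s' i₀ e D :=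
  h.param (φ := id) continuousOn_id hs

theorem HPFam.at (h : HPFam s i₀ e D) {t : T} (ht : t ∈ s) : HPData i₀ e (D t) :=
  h.param (s' := (univ : Set Unit)) (φ := fun _ => t) continuousOn_const fun _ _ => ht

theorem HPData.const {D : HData κ (ι → ℝ) V} (h : HPData i₀ e D) (s : Set T) :
    HPFam s i₀ e (fun _ => D) :=
  HPFam.param (T := Unit) (s := univ) (D := fun _ => D) (φ := fun _ : T => ()) continuousOn_const
    (fun _ _ => mem_univ _) h

end Fam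

/-- Admissible parameters for one set of hairpin data. -/
theorem HPData.exists_hadm [Finite κ] {i₀ : ι} {e : V} {D : HData κ (ι → ℝ) V}
    (h : HPData i₀ e D) : ∃ ε R M K, HAdm i₀ ε R M K D := by
  obtain ⟨ε₀, h1, R₀, _, L, _, K₀, _, H⟩ := Vale.Agent.P268.T.exists_hadm
    (s := (univ : Set Unit)) isCompact_univ h
  exact ⟨ε₀, R₀, L * R₀, K₀, H ε₀ ⟨h1, le_rfl⟩ R₀ le_rfl _ le_rfl K₀ le_rfl () (mem_univ _)⟩

theorem blockHPAdm : BlockHPAdm := fun _ _ _ _ h => h.exists_hadm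

/-- The statement for families of data and of parameters. -/
def HPVeqFam (κ : Type*) (ι : Type*) [Fintype κ] [Fintype ι] [DecidableEq ι] {V : Type*}
    [NormedAddCommGroup V] [InnerProductSpace ℝ V] (i₀ : ι) (e : V) : Prop :=
  ∀ (D : ℝ → HData κ (ι → ℝ) V) (ε R M K : ℝ → ℝ), ContinuousOn ε (Icc 0 1) →
    ContinuousOn R (Icc 0 1) → ContinuousOn M (Icc 0 1) → ContinuousOn K (Icc 0 1) →
    HPFam (Icc (0 : ℝ) 1) i₀ e D →
    (∀ t ∈ Icc (0 : ℝ) 1, HAdm i₀ (ε t) (R t) (M t) (K t) (D t)) →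
    VEq (HP i₀ e (ε 0) (R 0) (M 0) (K 0) (D 0)) (HP i₀ e (ε 1) (R 1) (M 1) (K 1) (D 1))

/-- **Homotopies of hairpin data**, with different admissible parameters at the two ends. -/
theorem HP_veq_of_homotopy [Fintype κ] {i₀ : ι} {e : V} (H : HPVeqFam κ ι i₀ e)
    {D : ℝ → HData κ (ι → ℝ) V} (h : HPFam (Icc (0 : ℝ) 1) i₀ e D)
    {ε R M K ε' R' M' K' : ℝ} (h0 : HAdm i₀ ε R M K (D 0)) (h1 : HAdm i₀ ε' R' M' K' (D 1)) :
    VEq (HP i₀ e ε R M K (D 0)) (HP i₀ e ε' R' M' K' (D 1)) := by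
  obtain ⟨ε₀, hε₀, R₀, hR₀, L, hL, K₀, hK₀, hA⟩ := exists_hadm isCompact_Icc h
  have l := left_mem_Icc.mpr (zero_le_one (α := ℝ))
  have r := right_mem_Icc.mpr (zero_le_one (α := ℝ))
  have hc : ∀ x y : ℝ, ContinuousOn (fun t : ℝ => (1 - t) * x + t * y) (Icc (0 : ℝ) 1) := by
    intro x y
    fun_prop
  have hr0 : 0 < (D 0).r0 := h.hr 0 l
  have hr1 : 0 < (D 1).r0 := h.hr 1 r
  -- the common parameters
  obtain ⟨ε₁, e0, e1, e2, e3⟩ : ∃ ε₁ : ℝ, 0 < ε₁ ∧ ε₁ ≤ ε₀ ∧ ε₁ ≤ ε ∧ ε₁ ≤ ε' :=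
    ⟨min ε₀ (min ε ε'), lt_min hε₀ (lt_min h0.hε h1.hε), min_le_left _ _,
      (min_le_right _ _).trans (min_le_left _ _), (min_le_right _ _).trans (min_le_right _ _)⟩
  obtain ⟨R₁, r1, r2, r3⟩ : ∃ R₁ : ℝ, R₀ ≤ R₁ ∧ R ≤ R₁ ∧ R' ≤ R₁ :=
    ⟨max R₀ (max R R'), le_max_left _ _, (le_max_left _ _).trans (le_max_right _ _),
      (le_max_right _ _).trans (le_max_right _ _)⟩
  obtain ⟨K₁, k1, k2, k3⟩ : ∃ K₁ : ℝ, K₀ ≤ K₁ ∧ K ≤ K₁ ∧ K' ≤ K₁ :=
    ⟨max K₀ (max K K'), le_max_left _ _, (le_max_left _ _).trans (le_max_right _ _),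
      (le_max_right _ _).trans (le_max_right _ _)⟩
  obtain ⟨M₁, m1, m2, m3, m4⟩ : ∃ M₁ : ℝ, L * R₁ ≤ M₁ ∧ 32 * R₁ ≤ M₁ ∧ R₁ / (D 0).r0 ≤ M₁ ∧
      R₁ / (D 1).r0 ≤ M₁ :=
    ⟨max (max (L * R₁) (32 * R₁)) (max (R₁ / (D 0).r0) (R₁ / (D 1).r0)),
      (le_max_left _ _).trans (le_max_left _ _), (le_max_right _ _).trans (le_max_left _ _),
      (le_max_left _ _).trans (le_max_right _ _), (le_max_right _ _).trans (le_max_right _ _)⟩
  rw [div_le_iff₀ hr0] at m3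
  rw [div_le_iff₀ hr1] at m4
  have s0 := H (fun _ => D 0) (fun t => (1 - t) * ε + t * ε₁) (fun t => (1 - t) * R + t * R₁)
    (fun t => (1 - t) * M + t * M₁) (fun t => (1 - t) * K + t * K₁) (hc _ _) (hc _ _) (hc _ _)
    (hc _ _) ((h.at l).const _) (fun t ht => h0.segment e0 e2 r2 m2 m3 k2 ht)
  have s1 := H D (fun _ => ε₁) (fun _ => R₁) (fun _ => M₁) (fun _ => K₁) continuousOn_const
    continuousOn_const continuousOn_const continuousOn_const h
    (fun t ht => hA ε₁ ⟨e0, e1⟩ R₁ r1 M₁ m1 K₁ k1 t ht)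
  have s2 := H (fun _ => D 1) (fun t => (1 - t) * ε' + t * ε₁) (fun t => (1 - t) * R' + t * R₁)
    (fun t => (1 - t) * M' + t * M₁) (fun t => (1 - t) * K' + t * K₁) (hc _ _) (hc _ _) (hc _ _)
    (hc _ _) ((h.at r).const _) (fun t ht => h1.segment e0 e3 r3 m2 m4 k3 ht)
  simp only [sub_zero, one_mul, zero_mul, add_zero, sub_self, zero_add] at s0 s2
  exact s0.trans (s1.trans s2.symm)

/-- `BlockHPHom` from the statement for families. -/
theorem blockHPHom_of (H : ∀ (d : ℕ) (κ : Type) [Fintype κ],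
    HPVeqFam κ (Fin (d + 3)) (V := Vk d) 0 (frk d).h) : BlockHPHom :=
  fun d κ _ _ _ _ _ _ _ _ _ _ h h0 h1 => HP_veq_of_homotopy (H d κ) h h0 h1

end Vale.Agent.P268.T
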