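import Vale.Agent.P268.T.H545.HPPt
import Vale.Agent.P268.T.H327.Zero

/-!
# P268, topological half: the zeros of the hairpin form, case analysis

At a zero of the real part, either only the slab counts, or there is a relevant plate `X` (a sheet
or the fold), inside its domain, which dominates all the others (apart from the slab) nearby.
-/

set_option linter.unusedSectionVars false

namespace Vale.Agent.P268.T

open Set Filter Topology Metric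

variable {T V κ ι : Type*} [TopologicalSpace T] [NormedAddCommGroup V] [InnerProductSpace ℝ V]
  [Fintype ι] [DecidableEq ι] [Fintype κ]

section Cases

variable {s : Set T} {i₀ : ι} {e : V} {ε R M K : T → ℝ} {D : T → HData κ (ι → ℝ) V}

theorem HPFam.nfp (hD : HPFam s i₀ e D) {τ : T} (hτ : τ ∈ s) (y : ℝ × (ι → ℝ)) :
    ‖HPt.fp i₀ (D τ) y‖ = 1 :=
  hD.nph τ hτ _ (wl_mem (hD.hc τ hτ).le (norm_kap_le y)) (wl_apply _ _ _)

variable {τ₀ : T} {x₀ : (ℝ × (ι → ℝ)) × V}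

theorem cwa_par {f : T → ℝ} (hf : ContinuousOn f s) (hτ₀ : τ₀ ∈ s) :
    ContinuousWithinAt (fun p : T × ((ℝ × (ι → ℝ)) × V) => f p.1) (s ×ˢ univ) (τ₀, x₀) :=
  ContinuousWithinAt.comp (g := f) (f := fun p : T × ((ℝ × (ι → ℝ)) × V) => p.1) (t := s)
    (hf τ₀ hτ₀) continuousWithinAt_fst fun _ hp => hp.1

theorem cwa_norm :
    ContinuousWithinAt (fun p : T × ((ℝ × (ι → ℝ)) × V) => ‖p.2.1‖) (s ×ˢ univ) (τ₀, x₀) := by
  have : Continuous fun p : T × ((ℝ × (ι → ℝ)) × V) => ‖p.2.1‖ := by fun_prop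
  exact this.continuousWithinAt

theorem cwa_u : ContinuousWithinAt (fun p : T × ((ℝ × (ι → ℝ)) × V) => p.2.1.1 - ‖p.2.1.2‖ / 2)
    (s ×ˢ univ) (τ₀, x₀) := by
  have : Continuous fun p : T × ((ℝ × (ι → ℝ)) × V) => p.2.1.1 - ‖p.2.1.2‖ / 2 := by fun_prop
  exact this.continuousWithinAt

theorem cwa_wq (hD : HPFam s i₀ e D) (cK : ContinuousOn K s) (hτ₀ : τ₀ ∈ s) :
    ContinuousWithinAt (fun p : T × ((ℝ × (ι → ℝ)) × V) => K p.1 * wq i₀ (D p.1).c p.2.1)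
      (s ×ˢ univ) (τ₀, x₀) := by
  have h1 : ContinuousWithinAt (fun p : T × ((ℝ × (ι → ℝ)) × V) => p.2.1.2 i₀) (s ×ˢ univ)
      (τ₀, x₀) := by
    have : Continuous fun p : T × ((ℝ × (ι → ℝ)) × V) => p.2.1.2 i₀ := by fun_prop
    exact this.continuousWithinAt
  have h2 : ContinuousWithinAt (fun p : T × ((ℝ × (ι → ℝ)) × V) =>
      max |p.2.1.1| (2 * ‖p.2.1.2‖) / 2) (s ×ˢ univ) (τ₀, x₀) := by
    have : Continuous fun p : T × ((ℝ × (ι → ℝ)) × V) =>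
      max |p.2.1.1| (2 * ‖p.2.1.2‖) / 2 := by fun_prop
    exact this.continuousWithinAt
  exact (cwa_par cK hτ₀).mul (h1.sub ((cwa_par hD.cc hτ₀).mul h2))

theorem cwa_rg (hD : HPFam s i₀ e D) (hτ₀ : τ₀ ∈ s) (t : ℝ) :
    ContinuousWithinAt (fun p : T × ((ℝ × (ι → ℝ)) × V) => t * (D p.1).r0 * ‖p.2.1‖)
      (s ×ˢ univ) (τ₀, x₀) :=
  (continuousWithinAt_const.mul (cwa_par hD.cr hτ₀)).mul cwa_norm

/-- The domain function of a hairpin sheet is continuous. -/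
theorem cwa_dom (hD : HPFam s i₀ e D) (cM : ContinuousOn M s) (cK : ContinuousOn K s)
    (hτ₀ : τ₀ ∈ s) (b : Bool) :
    ContinuousWithinAt (fun p : T × ((ℝ × (ι → ℝ)) × V) =>
      (hplates i₀ e ε R M K D).σ p.1 (.sh (.inr b)) p.2) (s ×ˢ univ) (τ₀, x₀) :=
  ContinuousWithinAt.inf ((cwa_par cM hτ₀).mul cwa_u)
    ((cwa_par cM hτ₀).mul ((cwa_wq hD cK hτ₀).neg.sub (cwa_rg hD hτ₀ 2)))

/-- The domain function of the fold is continuous. -/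
theorem cwa_fdom (hD : HPFam s i₀ e D) (cM : ContinuousOn M s) (cK : ContinuousOn K s)
    (hτ₀ : τ₀ ∈ s) :
    ContinuousWithinAt (fun p : T × ((ℝ × (ι → ℝ)) × V) =>
      (hplates i₀ e ε R M K D).σ p.1 .fold p.2) (s ×ˢ univ) (τ₀, x₀) :=
  ContinuousWithinAt.inf ((cwa_par cM hτ₀).mul cwa_u)
    ((cwa_par cM hτ₀).mul ((cwa_wq hD cK hτ₀).add (cwa_rg hD hτ₀ 4)))

/-- In the overlap zone, near a point of a hairpin sheet, the radial parts of this sheet and of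
the fold agree. -/
theorem tp_near (hD : HPFam s i₀ e D)
    (hA : ∀ τ ∈ s, HAdm i₀ (ε τ) (R τ) (M τ) (K τ) (D τ)) (cε : ContinuousOn ε s)
    (cK : ContinuousOn K s)
    (hcr : ∀ X, ContinuousOn (fun p : T × ((ℝ × (ι → ℝ)) × V) =>
      (hplates i₀ e ε R M K D).rho p.1 X p.2) (s ×ˢ univ))
    (hτ₀ : τ₀ ∈ s) (hx : x₀.1 ≠ 0) {b : Bool}
    (h1 : -(5 * (D τ₀).r0 * ‖x₀.1‖) < K τ₀ * wq i₀ (D τ₀).c x₀.1)
    (h2 : K τ₀ * wq i₀ (D τ₀).c x₀.1 < -(1 * (D τ₀).r0 * ‖x₀.1‖))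
    (h3 : 0 ≤ (hplates i₀ e ε R M K D).rho τ₀ (.sh (.inr b)) x₀) :
    ∀ᶠ p in 𝓝[s ×ˢ univ] (τ₀, x₀), (hplates i₀ e ε R M K D).tp p.1 .fold p.2 =
      (hplates i₀ e ε R M K D).tp p.1 (.sh (.inr b)) p.2 := by
  have hmem : (τ₀, x₀) ∈ s ×ˢ (univ : Set ((ℝ × (ι → ℝ)) × V)) := ⟨hτ₀, mem_univ _⟩
  have hg : 0 < ‖x₀.1‖ := norm_pos_iff.mpr hx
  have e1 : ∀ᶠ p : T × ((ℝ × (ι → ℝ)) × V) in 𝓝[s ×ˢ univ] (τ₀, x₀),
      -(5 * (D p.1).r0 * ‖p.2.1‖) < K p.1 * wq i₀ (D p.1).c p.2.1 :=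
    (cwa_rg hD hτ₀ 5).neg.eventually_lt (cwa_wq hD cK hτ₀) h1
  have e2 : ∀ᶠ p : T × ((ℝ × (ι → ℝ)) × V) in 𝓝[s ×ˢ univ] (τ₀, x₀),
      K p.1 * wq i₀ (D p.1).c p.2.1 < -(1 * (D p.1).r0 * ‖p.2.1‖) :=
    (cwa_wq hD cK hτ₀).eventually_lt (cwa_rg hD hτ₀ 1).neg h2
  have e3 : ∀ᶠ p : T × ((ℝ × (ι → ℝ)) × V) in 𝓝[s ×ˢ univ] (τ₀, x₀),
      -(ε p.1 * ‖p.2.1‖) < (hplates i₀ e ε R M K D).rho p.1 (.sh (.inr b)) p.2 :=
    ((cwa_par cε hτ₀).mul cwa_norm).neg.eventually_lt (hcr _ _ hmem) (by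
      have := mul_pos (hA τ₀ hτ₀).hε hg
      show -(ε τ₀ * ‖x₀.1‖) < (hplates i₀ e ε R M K D).rho τ₀ (.sh (.inr b)) x₀
      linarith)
  have e4 : ∀ᶠ p : T × ((ℝ × (ι → ℝ)) × V) in 𝓝[s ×ˢ univ] (τ₀, x₀), 0 < ‖p.2.1‖ :=
    (continuousWithinAt_const).eventually_lt cwa_norm hg
  filter_upwards [e1, e2, e3, e4, self_mem_nhdsWithin] with p p1 p2 p3 p4 p5
  have hne : p.2.1 ≠ 0 := norm_pos_iff.mp p4
  have hp := hD.nfp p5.1 p.2.1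
  have hAp := hA p.1 p5.1
  rw [one_mul] at p2
  have p6 : -(ε p.1 * ‖p.2.1‖) ≤ ε p.1 * ‖p.2.1‖ - ‖HPt.sw i₀ (D p.1) (.inr b) p.2.1 p.2.2‖ :=
    (lt_min_iff.mp p3).1.le
  have key : ‖HPt.fw i₀ (K p.1) (D p.1) p.2.1 p.2.2‖ =
      ‖HPt.sw i₀ (D p.1) (.inr b) p.2.1 p.2.2‖ := by
    cases b with
    | true =>
      exact HPt.norm_fw_k hAp hne p1.le p2.le (HPt.la_pos_of_k hAp hne hp p1.le p2.le p6).le
    | false =>
      exact HPt.norm_fw_t hAp hne hp p1.le p2.le (HPt.la_neg_of_t hAp hne hp p1.le p2.le p6).le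
  show ε p.1 * ‖p.2.1‖ - ‖HPt.fw i₀ (K p.1) (D p.1) p.2.1 p.2.2‖ =
    ε p.1 * ‖p.2.1‖ - ‖HPt.sw i₀ (D p.1) (.inr b) p.2.1 p.2.2‖
  rw [key]

/-- **The cases at a zero of the real part.** -/
theorem hp_cases (hD : HPFam s i₀ e D)
    (hA : ∀ τ ∈ s, HAdm i₀ (ε τ) (R τ) (M τ) (K τ) (D τ)) (cε : ContinuousOn ε s)
    (cM : ContinuousOn M s) (cK : ContinuousOn K s)
    (hcr : ∀ X, ContinuousOn (fun p : T × ((ℝ × (ι → ℝ)) × V) =>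
      (hplates i₀ e ε R M K D).rho p.1 X p.2) (s ×ˢ univ))
    (hτ₀ : τ₀ ∈ s) (hx : x₀.1 ≠ 0) (h0 : gre (hplates i₀ e ε R M K D).rho τ₀ x₀ = 0) :
    (∀ X, X ≠ .slab → (hplates i₀ e ε R M K D).rho τ₀ X x₀ < 0) ∨
    ∃ X, X ≠ .slab ∧ (hplates i₀ e ε R M K D).rho τ₀ X x₀ = 0 ∧
      0 < (hplates i₀ e ε R M K D).σ τ₀ X x₀ ∧ ‖x₀.2‖ < R τ₀ * ‖x₀.1‖ ∧
      (X = .fold → |kap x₀.1 i₀| < 1 ∧
        -(2 * (D τ₀).r0 * ‖x₀.1‖) ≤ K τ₀ * wq i₀ (D τ₀).c x₀.1) ∧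
      ∀ Y, Y ≠ .slab → Y ≠ X → (hplates i₀ e ε R M K D).rho τ₀ Y x₀ < 0 ∨
        ∀ᶠ p in 𝓝[s ×ˢ univ] (τ₀, x₀), (hplates i₀ e ε R M K D).rho p.1 Y p.2 ≤
          (hplates i₀ e ε R M K D).rho p.1 X p.2 := by
  set P := hplates i₀ e ε R M K D with hP
  have hmem : (τ₀, x₀) ∈ s ×ˢ (univ : Set ((ℝ × (ι → ℝ)) × V)) := ⟨hτ₀, mem_univ _⟩
  have hg : 0 < ‖x₀.1‖ := norm_pos_iff.mpr hx
  have hAp := hA τ₀ hτ₀
  have hp := hD.nfp hτ₀ x₀.1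
  have hM := HPt.M_pos hAp
  have hr0 := HPt.r0_pos hAp
  have hK := hAp.hK
  have hεg : 0 < ε τ₀ * ‖x₀.1‖ := mul_pos hAp.hε hg
  have hrg : 0 < (D τ₀).r0 * ‖x₀.1‖ := mul_pos hr0 hg
  have hle : ∀ X, P.rho τ₀ X x₀ ≤ 0 := fun X => h0 ▸ gre_ge τ₀ X x₀
  by_cases hall : ∀ X, X ≠ .slab → P.rho τ₀ X x₀ < 0
  · exact Or.inl hall
  right
  push Not at hall
  obtain ⟨X₀, hX₀, hX₀'⟩ := hall
  -- the point is inside the slab, over the sheets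
  have hv : ‖x₀.2‖ < R τ₀ * ‖x₀.1‖ := by
    cases X₀ with
    | slab => exact absurd rfl hX₀
    | sh a => exact HPt.V_sh hAp hx (le_min_iff.mp hX₀').1
    | fold => exact HPt.V_fo hAp hx hp (le_min_iff.mp hX₀').1
  have hσslab : ‖x₀.1.2‖ ≤ |x₀.1.1| := by
    by_contra h1
    have h2 : 0 < P.rho τ₀ .slab x₀ := by
      refine lt_min ?_ ?_
      · show 0 < R τ₀ * ‖x₀.1‖ - ‖x₀.2‖
        linarith
      · show 0 < M τ₀ * (‖x₀.1.2‖ - |x₀.1.1|)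
        exact mul_pos hM (by linarith [not_le.mp h1])
    linarith [hle .slab]
  have hu0 : 0 ≤ x₀.1.1 - ‖x₀.1.2‖ / 2 := by
    have h1 : 0 ≤ M τ₀ * (x₀.1.1 - ‖x₀.1.2‖ / 2) := by
      cases X₀ with
      | slab => exact absurd rfl hX₀
      | sh a =>
        cases a with
        | inl a => exact (le_min_iff.mp hX₀').2
        | inr b => exact (le_min_iff.mp (le_min_iff.mp hX₀').2).1
      | fold => exact (le_min_iff.mp (le_min_iff.mp hX₀').2).1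
    exact nonneg_of_mul_nonneg_right h1 hM
  have hu1 : 0 < x₀.1.1 - ‖x₀.1.2‖ / 2 := by
    have h1 : 0 ≤ ‖x₀.1.2‖ := norm_nonneg _
    have h2 : 0 ≤ x₀.1.1 := by linarith
    rw [abs_of_nonneg h2] at hσslab
    rcases h1.eq_or_lt with h3 | h3
    · rcases h2.eq_or_lt with h4 | h4
      · exfalso
        apply hx
        exact Prod.ext h4.symm (norm_eq_zero.mp h3.symm)
      · linarith
    · linarith
  have hMu : 0 < M τ₀ * (x₀.1.1 - ‖x₀.1.2‖ / 2) := mul_pos hM hu1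
  have hS1 : ∀ a a' : κ ⊕ Bool, a ≠ a' → P.rho τ₀ (.sh a) x₀ = 0 → P.rho τ₀ (.sh a') x₀ < 0 := by
    intro a a' ha h1
    by_contra h2
    refine HPt.S1 (s := x₀.1) (v := x₀.2) hAp hx ha ?_ ?_
    · show -(ε τ₀ * ‖x₀.1‖) < P.rho τ₀ (.sh a) x₀
      linarith
    · show -(ε τ₀ * ‖x₀.1‖) < P.rho τ₀ (.sh a') x₀
      linarith [not_lt.mp h2]
  have hS2 : ∀ a : κ, ¬ (0 ≤ P.rho τ₀ (.sh (.inl a)) x₀ ∧ 0 ≤ P.rho τ₀ .fold x₀) := by
    rintro a ⟨h1, h2⟩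
    have h3 : 0 ≤ ε τ₀ * ‖x₀.1‖ - ‖HPt.sw i₀ (D τ₀) (.inl a) x₀.1 x₀.2‖ := (le_min_iff.mp h1).1
    have h4 : 0 ≤ ε τ₀ * ‖x₀.1‖ - ‖HPt.fw i₀ (K τ₀) (D τ₀) x₀.1 x₀.2‖ := (le_min_iff.mp h2).1
    have h5 : 0 ≤ M τ₀ * (K τ₀ * wq i₀ (D τ₀).c x₀.1 + 4 * (D τ₀).r0 * ‖x₀.1‖) :=
      (le_min_iff.mp (le_min_iff.mp h2).2).2
    exact HPt.S2 (v := x₀.2) hAp hx hp (by linarith) (by linarith) (by linarith)
  -- the fold, over the overlap zone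
  have hfold : 0 ≤ P.rho τ₀ .fold x₀ → K τ₀ * wq i₀ (D τ₀).c x₀.1 <
      -(2 * (D τ₀).r0 * ‖x₀.1‖) → ∃ b : Bool, P.rho τ₀ (.sh (.inr b)) x₀ = 0 ∧
        0 < P.σ τ₀ (.sh (.inr b)) x₀ := by
    intro h1 h2
    have h3 : 0 ≤ K τ₀ * wq i₀ (D τ₀).c x₀.1 + 4 * (D τ₀).r0 * ‖x₀.1‖ :=
      nonneg_of_mul_nonneg_right (le_min_iff.mp (le_min_iff.mp h1).2).2 hM
    have h4 : -(5 * (D τ₀).r0 * ‖x₀.1‖) ≤ K τ₀ * wq i₀ (D τ₀).c x₀.1 := by nlinarith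
    have h5 : K τ₀ * wq i₀ (D τ₀).c x₀.1 ≤ -((D τ₀).r0 * ‖x₀.1‖) := by nlinarith
    have h6 : 0 ≤ ε τ₀ * ‖x₀.1‖ - ‖HPt.fw i₀ (K τ₀) (D τ₀) x₀.1 x₀.2‖ := (le_min_iff.mp h1).1
    have h7 : ∀ b, 0 < P.σ τ₀ (.sh (.inr b)) x₀ := fun b =>
      lt_min hMu (mul_pos hM (by linarith))
    have h8 : ∃ b, ‖HPt.fw i₀ (K τ₀) (D τ₀) x₀.1 x₀.2‖ =
        ‖HPt.sw i₀ (D τ₀) (.inr b) x₀.1 x₀.2‖ := by
      rcases le_total 0 (HPt.la i₀ (D τ₀) x₀.1 x₀.2) with h9 | h9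
      · exact ⟨true, HPt.norm_fw_k hAp hx h4 h5 h9⟩
      · exact ⟨false, HPt.norm_fw_t hAp hx hp h4 h5 h9⟩
    obtain ⟨b, hb⟩ := h8
    refine ⟨b, le_antisymm (hle _) (le_min ?_ (h7 b).le), h7 b⟩
    show 0 ≤ ε τ₀ * ‖x₀.1‖ - ‖HPt.sw i₀ (D τ₀) (.inr b) x₀.1 x₀.2‖
    rw [← hb]
    exact h6
  by_cases hcase : ∃ a, P.rho τ₀ (.sh a) x₀ = 0 ∧ 0 < P.σ τ₀ (.sh a) x₀
  · -- case (A)
    obtain ⟨a, ha1, ha2⟩ := hcase
    refine ⟨.sh a, by simp, ha1, ha2, hv, by simp, fun Y hY hY' => ?_⟩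
    cases Y with
    | slab => exact absurd rfl hY
    | sh a' =>
      left
      exact hS1 a a' (fun h => hY' (by rw [h])) ha1
    | fold =>
      by_cases hF : P.rho τ₀ .fold x₀ < 0
      · exact Or.inl hF
      right
      have hF' : 0 ≤ P.rho τ₀ .fold x₀ := not_lt.mp hF
      cases a with
      | inl a => exact absurd ⟨ha1.ge, hF'⟩ (hS2 a)
      | inr b =>
        have h1 : 0 < M τ₀ * (-(K τ₀ * wq i₀ (D τ₀).c x₀.1) - 2 * (D τ₀).r0 * ‖x₀.1‖) :=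
          (lt_min_iff.mp ha2).2
        have h2 : 0 < -(K τ₀ * wq i₀ (D τ₀).c x₀.1) - 2 * (D τ₀).r0 * ‖x₀.1‖ :=
          (mul_pos_iff_of_pos_left hM).mp h1
        have h3 : 0 ≤ K τ₀ * wq i₀ (D τ₀).c x₀.1 + 4 * (D τ₀).r0 * ‖x₀.1‖ :=
          nonneg_of_mul_nonneg_right (le_min_iff.mp (le_min_iff.mp hF').2).2 hM
        have e1 := tp_near hD hA cε cK hcr hτ₀ hx (b := b) (by nlinarith) (by nlinarith) ha1.ge
        have e2 : ∀ᶠ p in 𝓝[s ×ˢ univ] (τ₀, x₀), P.rho p.1 .fold p.2 <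
            P.σ p.1 (.sh (.inr b)) p.2 :=
          (hcr .fold _ hmem).eventually_lt (cwa_dom hD cM cK hτ₀ b)
            (lt_of_le_of_lt (hle .fold) ha2)
        filter_upwards [e1, e2] with p p1 p2
        refine le_min ?_ p2.le
        rw [← p1]
        exact min_le_left _ _
  · -- case (B)
    push Not at hcase
    -- the fold is present
    have hF : 0 ≤ P.rho τ₀ .fold x₀ := by
      cases X₀ with
      | slab => exact absurd rfl hX₀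
      | fold => exact hX₀'
      | sh a =>
        have ha := hcase a (le_antisymm (hle _) hX₀')
        cases a with
        | inl a => exact absurd hMu (not_lt.mpr ha)
        | inr b =>
          have h1 : K τ₀ * wq i₀ (D τ₀).c x₀.1 = -(2 * (D τ₀).r0 * ‖x₀.1‖) := by
            have h2 : 0 ≤ M τ₀ * (-(K τ₀ * wq i₀ (D τ₀).c x₀.1) - 2 * (D τ₀).r0 * ‖x₀.1‖) :=
              (le_min_iff.mp (le_min_iff.mp hX₀').2).2
            have h3 := nonneg_of_mul_nonneg_right h2 hM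
            by_contra h4
            have h5 : 0 < -(K τ₀ * wq i₀ (D τ₀).c x₀.1) - 2 * (D τ₀).r0 * ‖x₀.1‖ :=
              lt_of_le_of_ne h3 fun h6 => h4 (by linarith)
            exact absurd (lt_min hMu (mul_pos hM h5)) (not_lt.mpr ha)
          have e1 := (tp_near hD hA cε cK hcr hτ₀ hx (b := b) (by nlinarith)
            (by nlinarith) hX₀').self_of_nhdsWithin hmem
          refine le_min ?_ (le_min hMu.le (mul_pos hM ?_).le)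
          · rw [e1]
            exact (le_min_iff.mp hX₀').1
          · rw [h1]
            nlinarith
    have hF0 : P.rho τ₀ .fold x₀ = 0 := le_antisymm (hle _) hF
    have hz : -(2 * (D τ₀).r0 * ‖x₀.1‖) ≤ K τ₀ * wq i₀ (D τ₀).c x₀.1 := by
      by_contra h1
      obtain ⟨b, hb1, hb2⟩ := hfold hF (not_le.mp h1)
      exact absurd hb2 (not_lt.mpr (hcase _ hb1))
    have hσF : 0 < P.σ τ₀ .fold x₀ := lt_min hMu (mul_pos hM (by nlinarith))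
    have hkap : |kap x₀.1 i₀| < 1 := by
      have h1 : 0 ≤ ε τ₀ * ‖x₀.1‖ - ‖HPt.fw i₀ (K τ₀) (D τ₀) x₀.1 x₀.2‖ := (le_min_iff.mp hF).1
      obtain ⟨-, -, h2⟩ := HPt.fold_near (v := x₀.2) hp (t := ε τ₀) (by linarith)
      have h3 := mul_le_mul_of_nonneg_right hAp.hr hg.le
      have h4 := HPt.abs_wall hAp hx (t := 2 * (D τ₀).r0) (by positivity)
        (abs_le.mpr ⟨hz, by nlinarith⟩)
      have h5 : 2 * (2 * (D τ₀).r0) / K τ₀ ≤ 16 * (D τ₀).r0 / K τ₀ := by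
        apply div_le_div_of_nonneg_right _ hK.le
        linarith
      have h6 := hAp.h1
      have h7 : |kap x₀.1 i₀| ≤ |kap x₀.1 i₀ - (D τ₀).c| + |(D τ₀).c| := by
        have := abs_add_le (kap x₀.1 i₀ - (D τ₀).c) (D τ₀).c
        rwa [sub_add_cancel] at this
      linarith
    refine ⟨.fold, by simp, hF0, hσF, hv, fun _ => ⟨hkap, hz⟩, fun Y hY hY' => ?_⟩
    cases Y with
    | slab => exact absurd rfl hY
    | fold => exact absurd rfl hY'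
    | sh a =>
      by_cases hY2 : P.rho τ₀ (.sh a) x₀ < 0
      · exact Or.inl hY2
      right
      have hY3 : 0 ≤ P.rho τ₀ (.sh a) x₀ := not_lt.mp hY2
      cases a with
      | inl a => exact absurd ⟨hY3, hF⟩ (hS2 a)
      | inr b =>
        have h2 : 0 ≤ M τ₀ * (-(K τ₀ * wq i₀ (D τ₀).c x₀.1) - 2 * (D τ₀).r0 * ‖x₀.1‖) :=
          (le_min_iff.mp (le_min_iff.mp hY3).2).2
        have h3 := nonneg_of_mul_nonneg_right h2 hM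
        have e1 := tp_near hD hA cε cK hcr hτ₀ hx (b := b) (by nlinarith) (by nlinarith) hY3
        have e2 : ∀ᶠ p in 𝓝[s ×ˢ univ] (τ₀, x₀), P.rho p.1 (.sh (.inr b)) p.2 <
            P.σ p.1 .fold p.2 :=
          (hcr _ _ hmem).eventually_lt (cwa_fdom hD cM cK hτ₀) (lt_of_le_of_lt (hle _) hσF)
        filter_upwards [e1, e2] with p p1 p2
        refine le_min ?_ p2.le
        rw [p1]
        exact min_le_left _ _

end Cases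

end Vale.Agent.P268.T
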