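import Vale.Agent.P268.T.H545.HPAdm
import Vale.Agent.P268.T.H327.Geo

/-!
# P268, topological half: pointwise facts on the plates of the hairpin form

`s` is a nonzero base point, `v` a point of the fibre, `g = ‖s‖`, `q = wq i₀ c s`.
-/

set_option linter.unusedSectionVars false

namespace Vale.Agent.P268.T

open Set Filter Topology Metric

namespace HPt

variable {V κ ι : Type*} [NormedAddCommGroup V] [InnerProductSpace ℝ V]
  [Fintype ι] [DecidableEq ι]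

/-- The `w` of a sheet. -/
noncomputable def sw (i₀ : ι) (D : HData κ (ι → ℝ) V) (a : κ ⊕ Bool) (s : ℝ × (ι → ℝ)) (v : V) :
    V := v - ‖s‖ • D.cen i₀ a (kap s)

/-- Position relative to the midpoint. -/
noncomputable def fy (i₀ : ι) (D : HData κ (ι → ℝ) V) (s : ℝ × (ι → ℝ)) (v : V) : V :=
  v - ‖s‖ • D.m (wl i₀ D.c (kap s))

/-- The direction of the hairpin. -/
noncomputable def fp (i₀ : ι) (D : HData κ (ι → ℝ) V) (s : ℝ × (ι → ℝ)) : V :=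
  D.ph (wl i₀ D.c (kap s))

/-- The `w` of the fold. -/
noncomputable def fw (i₀ : ι) (K : ℝ) (D : HData κ (ι → ℝ) V) (s : ℝ × (ι → ℝ)) (v : V) : V :=
  foldw (D.dep i₀ K s) (fp i₀ D s) (fy i₀ D s v)

/-- The coordinate of the hairpin. -/
noncomputable def la (i₀ : ι) (D : HData κ (ι → ℝ) V) (s : ℝ × (ι → ℝ)) (v : V) : ℝ :=
  inner ℝ (fy i₀ D s v) (fp i₀ D s)

theorem norm_rfl' {ph y : V} (hph : ‖ph‖ = 1) : ‖rfl' ph y‖ = ‖y‖ := by
  have h : ‖rfl' ph y‖ ^ 2 = ‖y‖ ^ 2 := by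
    unfold rfl'
    rw [norm_sub_sq_real, norm_smul, real_inner_smul_right, hph, Real.norm_eq_abs, mul_one,
      sq_abs]
    ring
  exact (sq_eq_sq₀ (norm_nonneg _) (norm_nonneg _)).mp h

/-- Bounds from the fold: `|λ| + z` and the perpendicular part. -/
theorem foldw_bounds {z : ℝ} {ph y : V} (hph : ‖ph‖ = 1) :
    |(|inner ℝ y ph| + z)| ≤ ‖foldw z ph y‖ ∧ ‖y - (inner ℝ y ph) • ph‖ ≤ ‖foldw z ph y‖ := by
  set l : ℝ := inner ℝ y ph with hl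
  have h1 : foldw z ph y = (y - l • ph) + (|l| + z) • ph := by
    unfold foldw
    rw [← hl]
    module
  have h2 : inner ℝ (y - l • ph) ((|l| + z) • ph) = 0 := by
    rw [real_inner_smul_right, inner_sub_left, real_inner_smul_left, real_inner_self_eq_norm_sq,
      hph, ← hl]
    ring
  have h3 : ‖foldw z ph y‖ ^ 2 = ‖y - l • ph‖ ^ 2 + (|l| + z) ^ 2 := by
    rw [h1, norm_add_sq_real, h2, norm_smul, hph, Real.norm_eq_abs, mul_one, sq_abs]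
    ring
  constructor
  · rw [← abs_of_nonneg (norm_nonneg (foldw z ph y))]
    apply sq_le_sq.mp
    rw [h3]
    nlinarith [sq_nonneg ‖y - l • ph‖]
  · apply (sq_le_sq₀ (norm_nonneg _) (norm_nonneg _)).mp
    rw [h3]
    nlinarith [sq_nonneg (|l| + z)]

section Pt

variable {i₀ : ι} {ε R M K : ℝ} {D : HData κ (ι → ℝ) V} {s : ℝ × (ι → ℝ)} {v : V}

theorem r0_pos (h : HAdm i₀ ε R M K D) : 0 < D.r0 := by linarith [h.hr, h.hε]

theorem c_lt (h : HAdm i₀ ε R M K D) : |D.c| < 1 := by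
  have h1 := h.h1
  have h2 : 0 ≤ 16 * D.r0 / K := div_nonneg (by linarith [r0_pos h]) h.hK.le
  linarith

theorem M_pos (h : HAdm i₀ ε R M K D) : 0 < M := by linarith [h.hM, h.hR, h.hε]

/-- `ε ≤ M r₀`. -/
theorem eps_le (h : HAdm i₀ ε R M K D) : ε ≤ M * D.r0 := h.hR.trans h.hMr

/-- `|x i₀ - c| ≤ 2 t / K` if `|K q| ≤ t g`. -/
theorem abs_wall (h : HAdm i₀ ε R M K D) (hs : s ≠ 0) {t : ℝ} (ht : 0 ≤ t)
    (hq : |K * wq i₀ D.c s| ≤ t * ‖s‖) : |kap s i₀ - D.c| ≤ 2 * t / K := by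
  have hK := h.hK
  have hg := gmax_pos hs
  rw [wq_eq hs, abs_mul, abs_mul, abs_of_pos hK, abs_of_pos (by positivity : 0 < gmax s / 2)] at hq
  have h1 := norm_le_gmax s
  have h2 : t * ‖s‖ ≤ t * gmax s := mul_le_mul_of_nonneg_left h1 ht
  rw [le_div_iff₀ hK]
  have h3 : |kap s i₀ - D.c| * K * gmax s ≤ 2 * t * gmax s := by linarith
  exact le_of_mul_le_mul_right h3 hg

theorem kap_lt_of_wq (hs : s ≠ 0) {c : ℝ} (h : wq i₀ c s < 0) : kap s i₀ < c := by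
  have hg := gmax_pos hs
  rw [wq_eq hs] at h
  by_contra h1
  have h2 : 0 ≤ kap s i₀ - c := by linarith [not_lt.mp h1]
  have h3 : 0 ≤ (kap s i₀ - c) * (gmax s / 2) := by positivity
  linarith

/-- In the overlap zone the hairpin is rigid. -/
theorem overlap_dom (h : HAdm i₀ ε R M K D) (hs : s ≠ 0)
    (h1 : -(5 * D.r0 * ‖s‖) ≤ K * wq i₀ D.c s) (h2 : K * wq i₀ D.c s ≤ -(D.r0 * ‖s‖)) :
    kap s i₀ ≤ D.c ∧
    D.bk (kap s) = D.m (wl i₀ D.c (kap s)) + D.r0 • D.ph (wl i₀ D.c (kap s)) ∧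
    D.bt (kap s) = D.m (wl i₀ D.c (kap s)) - D.r0 • D.ph (wl i₀ D.c (kap s)) ∧
    D.nk (kap s) = D.nw (wl i₀ D.c (kap s)) ∧
    D.nt (kap s) = rfl' (D.ph (wl i₀ D.c (kap s))) (D.nw (wl i₀ D.c (kap s))) := by
  have hr0 := r0_pos h
  have hK := h.hK
  have hg : 0 < ‖s‖ := norm_pos_iff.mpr hs
  have hw := abs_wall h hs (t := 5 * D.r0) (by positivity)
    (abs_le.mpr ⟨h1, h2.trans (by nlinarith)⟩)
  have hq : wq i₀ D.c s < 0 := by
    by_contra h3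
    have := mul_nonneg hK.le (not_lt.mp h3)
    nlinarith
  have hlt := kap_lt_of_wq hs hq
  have hx : kap s ∈ closedBall (0 : ι → ℝ) 1 := kap_mem s
  have h3 : 2 * (5 * D.r0) / K ≤ 16 * D.r0 / K := by
    apply div_le_div_of_nonneg_right _ hK.le
    linarith
  exact ⟨hlt.le, h.hg (kap s) hx (by linarith [(abs_le.mp hw).1]) hlt.le⟩

/-- **The overlap zone**: the layers of the fold are the sheets `k`, `t`. -/
theorem overlap (h : HAdm i₀ ε R M K D) (hs : s ≠ 0) (h1 : -(5 * D.r0 * ‖s‖) ≤ K * wq i₀ D.c s)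
    (h2 : K * wq i₀ D.c s ≤ -(D.r0 * ‖s‖)) :
    (0 ≤ la i₀ D s v → fw i₀ K D s v = sw i₀ D (.inr true) s v) ∧
    (la i₀ D s v ≤ 0 → fw i₀ K D s v = rfl' (fp i₀ D s) (sw i₀ D (.inr false) s v) ∨
      ‖fp i₀ D s‖ ≠ 1) ∧
    la i₀ D s v = inner ℝ (sw i₀ D (.inr true) s v) (fp i₀ D s) +
      D.r0 * ‖s‖ * ‖fp i₀ D s‖ ^ 2 ∧
    la i₀ D s v = inner ℝ (sw i₀ D (.inr false) s v) (fp i₀ D s) -
      D.r0 * ‖s‖ * ‖fp i₀ D s‖ ^ 2 := by
  have hr0 := r0_pos h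
  have hK := h.hK
  have hg : 0 < ‖s‖ := norm_pos_iff.mpr hs
  have hw := abs_wall h hs (t := 5 * D.r0) (by positivity)
    (abs_le.mpr ⟨h1, h2.trans (by nlinarith)⟩)
  have hq : wq i₀ D.c s < 0 := by
    by_contra h3
    have := mul_nonneg hK.le (not_lt.mp h3)
    nlinarith
  have hlt := kap_lt_of_wq hs hq
  have hx : kap s ∈ closedBall (0 : ι → ℝ) 1 := kap_mem s
  have h3 : 2 * (5 * D.r0) / K ≤ 16 * D.r0 / K := by
    apply div_le_div_of_nonneg_right _ hK.le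
    linarith
  have h4 := h.hg (kap s) hx (by linarith [(abs_le.mp hw).1]) hlt.le
  have hlf : lf i₀ D.c (kap s) = kap s := lf_of_le hlt.le
  have ck : sw i₀ D (.inr true) s v = fy i₀ D s v - (D.r0 * ‖s‖) • fp i₀ D s := by
    show v - ‖s‖ • D.bk (lf i₀ D.c (kap s)) = _
    rw [hlf, h4.1]
    unfold fy fp
    module
  have ct : sw i₀ D (.inr false) s v = fy i₀ D s v + (D.r0 * ‖s‖) • fp i₀ D s := by
    show v - ‖s‖ • D.bt (lf i₀ D.c (kap s)) = _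
    rw [hlf, h4.2.1]
    unfold fy fp
    module
  have hz : D.dep i₀ K s = -(D.r0 * ‖s‖) := max_eq_right h2
  refine ⟨fun hl => ?_, fun hl => ?_, ?_, ?_⟩
  · rw [ck]
    unfold fw foldw
    rw [hz]
    unfold la at hl
    rw [abs_of_nonneg hl]
    module
  · by_cases hp : ‖fp i₀ D s‖ = 1
    · left
      rw [ct]
      unfold fw foldw rfl'
      rw [hz, inner_add_left, real_inner_smul_left, real_inner_self_eq_norm_sq, hp]
      unfold la at hl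
      rw [abs_of_nonpos hl]
      module
    · exact Or.inr hp
  · rw [ck, inner_sub_left, real_inner_smul_left, real_inner_self_eq_norm_sq]
    unfold la
    ring
  · rw [ct, inner_add_left, real_inner_smul_left, real_inner_self_eq_norm_sq]
    unfold la
    ring

theorem la_pos_of_k (h : HAdm i₀ ε R M K D) (hs : s ≠ 0) (hph : ‖fp i₀ D s‖ = 1)
    (h1 : -(5 * D.r0 * ‖s‖) ≤ K * wq i₀ D.c s) (h2 : K * wq i₀ D.c s ≤ -(D.r0 * ‖s‖))
    (h3 : -(ε * ‖s‖) ≤ ε * ‖s‖ - ‖sw i₀ D (.inr true) s v‖) : 0 < la i₀ D s v := by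
  have hg : 0 < ‖s‖ := norm_pos_iff.mpr hs
  obtain ⟨-, -, h4, -⟩ := overlap (v := v) h hs h1 h2
  have h5 := abs_real_inner_le_norm (sw i₀ D (.inr true) s v) (fp i₀ D s)
  rw [hph, mul_one] at h5
  rw [hph] at h4
  have h6 := (abs_le.mp h5).1
  have h7 := h.hr
  have h8 : 8 * ε * ‖s‖ ≤ D.r0 * ‖s‖ := mul_le_mul_of_nonneg_right h7 hg.le
  have h9 : 0 < ε * ‖s‖ := mul_pos h.hε hg
  nlinarith

theorem la_neg_of_t (h : HAdm i₀ ε R M K D) (hs : s ≠ 0) (hph : ‖fp i₀ D s‖ = 1)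
    (h1 : -(5 * D.r0 * ‖s‖) ≤ K * wq i₀ D.c s) (h2 : K * wq i₀ D.c s ≤ -(D.r0 * ‖s‖))
    (h3 : -(ε * ‖s‖) ≤ ε * ‖s‖ - ‖sw i₀ D (.inr false) s v‖) : la i₀ D s v < 0 := by
  have hg : 0 < ‖s‖ := norm_pos_iff.mpr hs
  obtain ⟨-, -, -, h4⟩ := overlap (v := v) h hs h1 h2
  have h5 := abs_real_inner_le_norm (sw i₀ D (.inr false) s v) (fp i₀ D s)
  rw [hph, mul_one] at h5
  rw [hph] at h4
  have h6 := (abs_le.mp h5).2
  have h7 := h.hr
  have h8 : 8 * ε * ‖s‖ ≤ D.r0 * ‖s‖ := mul_le_mul_of_nonneg_right h7 hg.le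
  have h9 : 0 < ε * ‖s‖ := mul_pos h.hε hg
  nlinarith

/-- Over the overlap zone the norms agree. -/
theorem norm_fw_k (h : HAdm i₀ ε R M K D) (hs : s ≠ 0)
    (h1 : -(5 * D.r0 * ‖s‖) ≤ K * wq i₀ D.c s) (h2 : K * wq i₀ D.c s ≤ -(D.r0 * ‖s‖))
    (h3 : 0 ≤ la i₀ D s v) : ‖fw i₀ K D s v‖ = ‖sw i₀ D (.inr true) s v‖ := by
  rw [(overlap h hs h1 h2).1 h3]

theorem norm_fw_t (h : HAdm i₀ ε R M K D) (hs : s ≠ 0) (hph : ‖fp i₀ D s‖ = 1)
    (h1 : -(5 * D.r0 * ‖s‖) ≤ K * wq i₀ D.c s) (h2 : K * wq i₀ D.c s ≤ -(D.r0 * ‖s‖))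
    (h3 : la i₀ D s v ≤ 0) : ‖fw i₀ K D s v‖ = ‖sw i₀ D (.inr false) s v‖ := by
  rcases (overlap h hs h1 h2).2.1 h3 with h4 | h4
  · rw [h4, norm_rfl' hph]
  · exact absurd hph h4

/-- Over the overlap zone the imaginary parts agree (sheet `k`). -/
theorem be_k (h : HAdm i₀ ε R M K D) (hs : s ≠ 0)
    (h1 : -(5 * D.r0 * ‖s‖) ≤ K * wq i₀ D.c s) (h2 : K * wq i₀ D.c s ≤ -(D.r0 * ‖s‖))
    (h3 : 0 ≤ la i₀ D s v) : inner ℝ (fw i₀ K D s v) (D.nw (wl i₀ D.c (kap s))) =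
      inner ℝ (sw i₀ D (.inr true) s v) (D.nor i₀ (.inr true) (kap s)) := by
  obtain ⟨h4, h5⟩ := overlap_dom h hs h1 h2
  rw [(overlap h hs h1 h2).1 h3]
  show _ = inner ℝ _ (D.nk (lf i₀ D.c (kap s)))
  rw [lf_of_le h4, h5.2.2.1]

/-- Over the overlap zone the imaginary parts agree (sheet `t`). -/
theorem be_t (h : HAdm i₀ ε R M K D) (hs : s ≠ 0) (hph : ‖fp i₀ D s‖ = 1)
    (h1 : -(5 * D.r0 * ‖s‖) ≤ K * wq i₀ D.c s) (h2 : K * wq i₀ D.c s ≤ -(D.r0 * ‖s‖))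
    (h3 : la i₀ D s v ≤ 0) : inner ℝ (fw i₀ K D s v) (D.nw (wl i₀ D.c (kap s))) =
      inner ℝ (sw i₀ D (.inr false) s v) (D.nor i₀ (.inr false) (kap s)) := by
  obtain ⟨h4, h5⟩ := overlap_dom h hs h1 h2
  rcases (overlap h hs h1 h2).2.1 h3 with h6 | h6
  · rw [h6]
    show _ = inner ℝ _ (D.nt (lf i₀ D.c (kap s)))
    rw [lf_of_le h4, h5.2.2.2]
    unfold rfl' fp
    rw [inner_sub_left, inner_sub_right, real_inner_smul_left, real_inner_smul_right,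
      real_inner_comm (D.nw (wl i₀ D.c (kap s))) (D.ph (wl i₀ D.c (kap s)))]
    ring
  · exact absurd hph h6

/-- The domain function of a hairpin sheet: left of the wall. -/
theorem kap_lt_of_dom (h : HAdm i₀ ε R M K D) (hs : s ≠ 0) {b : Bool}
    (h1 : -(ε * ‖s‖) < D.dom i₀ M K (.inr b) s) : kap s i₀ < D.c := by
  have hg : 0 < ‖s‖ := norm_pos_iff.mpr hs
  have hK := h.hK
  have hM := M_pos h
  have hr0 := r0_pos h
  have h2 : -(ε * ‖s‖) < M * (-(K * wq i₀ D.c s) - 2 * D.r0 * ‖s‖) :=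
    lt_of_lt_of_le h1 (min_le_right _ _)
  have h3 : ε * ‖s‖ ≤ M * D.r0 * ‖s‖ := mul_le_mul_of_nonneg_right (eps_le h) hg.le
  refine kap_lt_of_wq hs ?_
  by_contra h4
  have h5 := mul_nonneg hM.le (mul_nonneg hK.le (not_lt.mp h4))
  have h6 : 0 < M * D.r0 * ‖s‖ := by positivity
  nlinarith

/-- Two sheets cannot be present at the same point. -/
theorem S1 (h : HAdm i₀ ε R M K D) (hs : s ≠ 0) {a a' : κ ⊕ Bool} (ha : a ≠ a')
    (h1 : -(ε * ‖s‖) < min (ε * ‖s‖ - ‖sw i₀ D a s v‖) (D.dom i₀ M K a s))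
    (h2 : -(ε * ‖s‖) < min (ε * ‖s‖ - ‖sw i₀ D a' s v‖) (D.dom i₀ M K a' s)) : False := by
  have hg : 0 < ‖s‖ := norm_pos_iff.mpr hs
  have hx : kap s ∈ closedBall (0 : ι → ℝ) 1 := kap_mem s
  obtain ⟨h3, h4⟩ := lt_min_iff.mp h1
  obtain ⟨h5, h6⟩ := lt_min_iff.mp h2
  have h7 : a.isRight ∨ a'.isRight → kap s i₀ ≤ D.c := by
    rintro (h8 | h8)
    · obtain ⟨b, rfl⟩ := Sum.isRight_iff.mp h8
      exact (kap_lt_of_dom h hs h4).le
    · obtain ⟨b, rfl⟩ := Sum.isRight_iff.mp h8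
      exact (kap_lt_of_dom h hs h6).le
  have h8 := h.hd a a' ha (kap s) hx h7
  have h9 : ‖s‖ • (D.cen i₀ a (kap s) - D.cen i₀ a' (kap s)) =
      sw i₀ D a' s v - sw i₀ D a s v := by
    unfold sw
    module
  have h10 : ‖s‖ * ‖D.cen i₀ a (kap s) - D.cen i₀ a' (kap s)‖ ≤
      ‖sw i₀ D a' s v‖ + ‖sw i₀ D a s v‖ := by
    have := norm_sub_le (sw i₀ D a' s v) (sw i₀ D a s v)
    rw [← h9, norm_smul, norm_norm] at this
    exact this
  have h11 := mul_le_mul_of_nonneg_left h8 hg.le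
  linarith

/-- The fold, where present: bounds. -/
theorem fold_near (hph : ‖fp i₀ D s‖ = 1) {t : ℝ} (ht : ‖fw i₀ K D s v‖ ≤ t * ‖s‖) :
    |la i₀ D s v| ≤ (D.r0 + t) * ‖s‖ ∧ ‖fy i₀ D s v - la i₀ D s v • fp i₀ D s‖ ≤ t * ‖s‖ ∧
      K * wq i₀ D.c s ≤ t * ‖s‖ := by
  obtain ⟨h1, h2⟩ := foldw_bounds (z := D.dep i₀ K s) (y := fy i₀ D s v) hph
  have h3 : |(|la i₀ D s v| + D.dep i₀ K s)| ≤ t * ‖s‖ := h1.trans ht
  have h4 : -(D.r0 * ‖s‖) ≤ D.dep i₀ K s := le_max_right _ _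
  have h5 : K * wq i₀ D.c s ≤ D.dep i₀ K s := le_max_left _ _
  have h6 := (abs_le.mp h3).2
  have h7 := abs_nonneg (la i₀ D s v)
  refine ⟨by linarith, h2.trans ht, by linarith⟩

/-- The fold and one of the other sheets cannot be present at the same point. -/
theorem S2 (h : HAdm i₀ ε R M K D) (hs : s ≠ 0) (hph : ‖fp i₀ D s‖ = 1) {a : κ}
    (h1 : -(ε * ‖s‖) < ε * ‖s‖ - ‖sw i₀ D (.inl a) s v‖)
    (h2 : -(ε * ‖s‖) < ε * ‖s‖ - ‖fw i₀ K D s v‖)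
    (h3 : -(ε * ‖s‖) < M * (K * wq i₀ D.c s + 4 * D.r0 * ‖s‖)) : False := by
  have hg : 0 < ‖s‖ := norm_pos_iff.mpr hs
  have hK := h.hK
  have hM := M_pos h
  have hr0 := r0_pos h
  have hε := h.hε
  have hx : kap s ∈ closedBall (0 : ι → ℝ) 1 := kap_mem s
  obtain ⟨h4, h5, h6⟩ := fold_near (v := v) hph (t := 2 * ε) (by linarith)
  have hr := mul_le_mul_of_nonneg_right h.hr hg.le
  have h7 : -(5 * D.r0 * ‖s‖) ≤ K * wq i₀ D.c s := by
    by_contra h8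
    have h9 : K * wq i₀ D.c s + 4 * D.r0 * ‖s‖ < -(D.r0 * ‖s‖) := by linarith [not_le.mp h8]
    have h10 := mul_lt_mul_of_pos_left h9 hM
    have h11 := mul_le_mul_of_nonneg_right (eps_le h) hg.le
    nlinarith
  have h8 : |K * wq i₀ D.c s| ≤ 5 * D.r0 * ‖s‖ := abs_le.mpr ⟨h7, by nlinarith⟩
  have h9 := abs_wall h hs (by positivity) h8
  have h10 : |kap s i₀ - D.c| ≤ 16 * D.r0 / K := by
    refine h9.trans (div_le_div_of_nonneg_right ?_ hK.le)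
    linarith
  -- the nearest point of the segment
  set l := la i₀ D s v / ‖s‖ with hl
  have hls : la i₀ D s v = l * ‖s‖ := by rw [hl, div_mul_cancel₀ _ hg.ne']
  have hl1 : |l| ≤ D.r0 + 2 * ε := by
    rw [hls, abs_mul, abs_of_pos hg] at h4
    exact le_of_mul_le_mul_right h4 hg
  set μ := max (-D.r0) (min l D.r0) with hμ
  have hμ1 : |μ| ≤ D.r0 := abs_le.mpr ⟨le_max_left _ _, max_le (by linarith) (min_le_right _ _)⟩
  have hμ2 : |l - μ| ≤ 2 * ε := by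
    obtain ⟨a1, a2⟩ := abs_le.mp hl1
    rw [hμ, abs_le]
    rcases le_total l D.r0 with b1 | b1
    · rw [min_eq_left b1]
      rcases le_total (-D.r0) l with b2 | b2
      · rw [max_eq_right b2]; constructor <;> linarith
      · rw [max_eq_left b2]; constructor <;> linarith
    · rw [min_eq_right b1, max_eq_right (by linarith)]
      constructor <;> linarith
  have h11 := h.ht a (kap s) hx h10 μ hμ1
  have h12 : ‖s‖ • (D.b a (kap s) - (D.m (wl i₀ D.c (kap s)) + μ • D.ph (wl i₀ D.c (kap s)))) =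
      (fy i₀ D s v - la i₀ D s v • fp i₀ D s) + ((l - μ) * ‖s‖) • fp i₀ D s -
        sw i₀ D (.inl a) s v := by
    rw [hls]
    unfold sw fy fp HData.cen
    module
  have h13 : ‖s‖ * ‖D.b a (kap s) - (D.m (wl i₀ D.c (kap s)) + μ • D.ph (wl i₀ D.c (kap s)))‖ ≤
      ‖fy i₀ D s v - la i₀ D s v • fp i₀ D s‖ + |l - μ| * ‖s‖ + ‖sw i₀ D (.inl a) s v‖ := by
    have b1 := norm_sub_le ((fy i₀ D s v - la i₀ D s v • fp i₀ D s) +
      ((l - μ) * ‖s‖) • fp i₀ D s) (sw i₀ D (.inl a) s v)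
    have b2 := norm_add_le (fy i₀ D s v - la i₀ D s v • fp i₀ D s) (((l - μ) * ‖s‖) • fp i₀ D s)
    rw [← h12, norm_smul, norm_norm] at b1
    rw [norm_smul ((l - μ) * ‖s‖), hph, mul_one, Real.norm_eq_abs, abs_mul, abs_of_pos hg] at b2
    linarith
  have h14 := mul_le_mul_of_nonneg_left h11 hg.le
  have h15 := mul_le_mul_of_nonneg_right hμ2 hg.le
  nlinarith

/-- A point of a sheet is inside the slab. -/
theorem V_sh (h : HAdm i₀ ε R M K D) (hs : s ≠ 0) {a : κ ⊕ Bool}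
    (h1 : 0 ≤ ε * ‖s‖ - ‖sw i₀ D a s v‖) : ‖v‖ < R * ‖s‖ := by
  have hg : 0 < ‖s‖ := norm_pos_iff.mpr hs
  have h2 : v = sw i₀ D a s v + ‖s‖ • D.cen i₀ a (kap s) := by
    unfold sw
    module
  have h3 := norm_add_le (sw i₀ D a s v) (‖s‖ • D.cen i₀ a (kap s))
  rw [← h2, norm_smul, norm_norm] at h3
  have h4 := mul_lt_mul_of_pos_right (h.hb a (kap s) (kap_mem s)) hg
  have h5 := mul_pos h.hε hg
  nlinarith

/-- A point of the fold is inside the slab. -/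
theorem V_fo (h : HAdm i₀ ε R M K D) (hs : s ≠ 0) (hph : ‖fp i₀ D s‖ = 1)
    (h1 : 0 ≤ ε * ‖s‖ - ‖fw i₀ K D s v‖) : ‖v‖ < R * ‖s‖ := by
  have hg : 0 < ‖s‖ := norm_pos_iff.mpr hs
  obtain ⟨h4, h5, -⟩ := fold_near (v := v) hph (t := ε) (by linarith)
  have hwl : wl i₀ D.c (kap s) ∈ closedBall (0 : ι → ℝ) 1 :=
    mem_closedBall_zero_iff.mpr (wl_mem (c_lt h).le (norm_kap_le s))
  have h6 := mul_lt_mul_of_pos_right (h.hm _ hwl (wl_apply i₀ D.c (kap s))) hg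
  have h2 : v = (fy i₀ D s v - la i₀ D s v • fp i₀ D s) + la i₀ D s v • fp i₀ D s +
      ‖s‖ • D.m (wl i₀ D.c (kap s)) := by
    unfold fy
    module
  have h3 : ‖v‖ ≤ ‖fy i₀ D s v - la i₀ D s v • fp i₀ D s‖ + |la i₀ D s v| +
      ‖s‖ * ‖D.m (wl i₀ D.c (kap s))‖ := by
    have b1 := norm_add_le (fy i₀ D s v - la i₀ D s v • fp i₀ D s) (la i₀ D s v • fp i₀ D s)
    have b2 := norm_add_le ((fy i₀ D s v - la i₀ D s v • fp i₀ D s) + la i₀ D s v • fp i₀ D s)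
      (‖s‖ • D.m (wl i₀ D.c (kap s)))
    rw [← h2, norm_smul ‖s‖, norm_norm] at b2
    rw [norm_smul (la i₀ D s v), hph, mul_one, Real.norm_eq_abs] at b1
    linarith
  have h7 := mul_le_mul_of_nonneg_right h.hr hg.le
  have h8 := mul_pos h.hε hg
  nlinarith

end Pt

end HPt

end Vale.Agent.P268.T
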